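import Vale.Agent.P065.UB.H759.StarDef

/-!
# P065, upper bound, line P: the field `star` of the grid (helper759)
-/

set_option autoImplicit false

namespace Vale.Agent.P065.UB.H759

open Finset Vale.Agent.P065.UB
open Vale.Agent.P065.H626 (Box)

section sl

variable {s C0 : ℕ} {K L lam δ : ℝ} {Q : Finset Pt} {ι : Type} {W : Finset ι} {a b : ι → ℝ}
  {Y : ι → Finset Pt} {J : ι → Finset (Pt × Pt)} {w₀ : ι} {ε : ℝ} {p₁ p₂ : Pt}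
  {P3 G0 : Finset Pt}

/-- a point with cell in the box lies in the polygon of the dilated box -/
theorem Sl.pol_of_box (h : Sl s C0 K L lam δ Q W a b Y J w₀ ε p₁ p₂ P3 G0)
    {al' t r s₀ h₀ : ℝ} (hal : |al'| ≤ L) (ht : L ^ 8 * δ ≤ t) (hr : L ^ 8 * δ ≤ r)
    {S : Finset (ℝ × ℝ × ℝ)} (hS : ∀ q : Pt, Pol S q ↔ 1 / (4 * L ^ 2) ≤ hh ε p₁ p₂ q ∧
      |(q.1 - p₁.1) + al' * (q.1 - p₂.1) - s₀ * hh ε p₁ p₂ q| ≤ L ^ 2 * t * hh ε p₁ p₂ q ∧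
      |(q.1 - p₂.1) - h₀ * hh ε p₁ p₂ q| ≤ L ^ 2 * r * hh ε p₁ p₂ q) {q : Pt} (hq : q ∈ G0)
    (hb : Box al' t r s₀ h₀ (kap (L ^ 8 * δ) ε p₁ p₂ q)) : Pol S q := by
  have hlow := h.hlow hq
  have hL0 := h.fr.L0
  have hL1 := h.fr.pj.L1
  have hd := h.d0
  have hpos : 0 < hh ε p₁ p₂ q := by
    have : 0 < 1 / (4 * L ^ 2) := by positivity
    linarith
  obtain ⟨h1, h2⟩ := hb
  have h7 := rd_near (t := cc ε p₁ p₂ p₁ q) hd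
  have h8 := rd_near (t := cc ε p₁ p₂ p₂ q) hd
  unfold kap at h1 h2
  simp only at h1 h2
  have hLb := h.fr.Lbig
  have h4 : (4 : ℝ) ≤ L := by
    have : (4 : ℝ) ≤ 2 ^ 40 := by norm_num
    linarith
  have ht0 : 0 < t := by linarith
  have hr0 : 0 < r := by linarith
  rw [hS q]
  refine ⟨hlow, ?_, ?_⟩
  · have e : (q.1 - p₁.1) + al' * (q.1 - p₂.1) - s₀ * hh ε p₁ p₂ q
        = (cc ε p₁ p₂ p₁ q + al' * cc ε p₁ p₂ p₂ q - s₀) * hh ε p₁ p₂ q := by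
      unfold cc; field_simp
    rw [e, abs_mul, abs_of_pos hpos]
    gcongr
    have e2 : cc ε p₁ p₂ p₁ q + al' * cc ε p₁ p₂ p₂ q - s₀
        = (rd (L ^ 8 * δ) (cc ε p₁ p₂ p₁ q) + al' * rd (L ^ 8 * δ) (cc ε p₁ p₂ p₂ q) - s₀)
          + (cc ε p₁ p₂ p₁ q - rd (L ^ 8 * δ) (cc ε p₁ p₂ p₁ q))
          + al' * (cc ε p₁ p₂ p₂ q - rd (L ^ 8 * δ) (cc ε p₁ p₂ p₂ q)) := by ring
    rw [e2]
    calc _ ≤ |rd (L ^ 8 * δ) (cc ε p₁ p₂ p₁ q) + al' * rd (L ^ 8 * δ) (cc ε p₁ p₂ p₂ q) - s₀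
          + (cc ε p₁ p₂ p₁ q - rd (L ^ 8 * δ) (cc ε p₁ p₂ p₁ q))|
          + |al' * (cc ε p₁ p₂ p₂ q - rd (L ^ 8 * δ) (cc ε p₁ p₂ p₂ q))| := abs_add_le _ _
      _ ≤ |rd (L ^ 8 * δ) (cc ε p₁ p₂ p₁ q) + al' * rd (L ^ 8 * δ) (cc ε p₁ p₂ p₂ q) - s₀|
          + |cc ε p₁ p₂ p₁ q - rd (L ^ 8 * δ) (cc ε p₁ p₂ p₁ q)|
          + |al' * (cc ε p₁ p₂ p₂ q - rd (L ^ 8 * δ) (cc ε p₁ p₂ p₂ q))| := by
          gcongr
          exact abs_add_le _ _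
      _ ≤ t + t + L * t := by
          rw [abs_mul]
          have h9 := h7.trans ht
          have h10 := h8.trans ht
          gcongr
      _ ≤ L ^ 2 * t := by
          have : 2 + L ≤ L ^ 2 := by nlinarith
          nlinarith
  · have e : (q.1 - p₂.1) - h₀ * hh ε p₁ p₂ q
        = (cc ε p₁ p₂ p₂ q - h₀) * hh ε p₁ p₂ q := by
      unfold cc; field_simp
    rw [e, abs_mul, abs_of_pos hpos]
    gcongr
    calc |cc ε p₁ p₂ p₂ q - h₀| ≤ |cc ε p₁ p₂ p₂ q - rd (L ^ 8 * δ) (cc ε p₁ p₂ p₂ q)|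
          + |rd (L ^ 8 * δ) (cc ε p₁ p₂ p₂ q) - h₀| := abs_sub_le _ _ _
      _ ≤ r + r := by
          have := h8.trans hr
          gcongr
      _ ≤ L ^ 2 * r := by
          have : 2 ≤ L ^ 2 := by nlinarith
          nlinarith

open Classical in
/-- the points of the polygon are in the dilated box of the chart -/
theorem Sl.pol_card (h : Sl s C0 K L lam δ Q W a b Y J w₀ ε p₁ p₂ P3 G0)
    {al' t r s₀ h₀ : ℝ}
    {S : Finset (ℝ × ℝ × ℝ)} (hS : ∀ q : Pt, Pol S q ↔ 1 / (4 * L ^ 2) ≤ hh ε p₁ p₂ q ∧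
      |(q.1 - p₁.1) + al' * (q.1 - p₂.1) - s₀ * hh ε p₁ p₂ q| ≤ L ^ 2 * t * hh ε p₁ p₂ q ∧
      |(q.1 - p₂.1) - h₀ * hh ε p₁ p₂ q| ≤ L ^ 2 * r * hh ε p₁ p₂ q) :
    #{q ∈ Q | Pol S q} ≤ #{k ∈ P0c L ε p₁ p₂ Q | Box al' (L ^ 2 * t) (L ^ 2 * r) s₀ h₀ k} := by
  have hL0 := h.fr.L0
  refine card_le_card_of_injOn (fun q => (cc ε p₁ p₂ p₁ q, cc ε p₁ p₂ p₂ q)) ?_ ?_
  · intro q hq
    obtain ⟨hqQ, hq1⟩ := mem_filter.1 (mem_coe.1 hq)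
    obtain ⟨h1, h2, h3⟩ := (hS q).1 hq1
    have hpos : 0 < hh ε p₁ p₂ q := by
      have : 0 < 1 / (4 * L ^ 2) := by positivity
      linarith
    refine mem_coe.2 (mem_filter.2 ⟨mem_image_of_mem _ (mem_filter.2 ⟨hqQ, h1⟩), ?_, ?_⟩)
    · have e : (q.1 - p₁.1) + al' * (q.1 - p₂.1) - s₀ * hh ε p₁ p₂ q
          = (cc ε p₁ p₂ p₁ q + al' * cc ε p₁ p₂ p₂ q - s₀) * hh ε p₁ p₂ q := by
        unfold cc; field_simp
      rw [e, abs_mul, abs_of_pos hpos] at h2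
      exact le_of_mul_le_mul_right h2 hpos
    · have e : (q.1 - p₂.1) - h₀ * hh ε p₁ p₂ q
          = (cc ε p₁ p₂ p₂ q - h₀) * hh ε p₁ p₂ q := by
        unfold cc; field_simp
      rw [e, abs_mul, abs_of_pos hpos] at h3
      exact le_of_mul_le_mul_right h3 hpos
  · intro q hq q' hq' he
    have hpos : ∀ x ∈ ({q ∈ Q | Pol S q} : Finset Pt), 0 < hh ε p₁ p₂ x := by
      intro x hx
      have h1 := ((hS x).1 (mem_filter.1 hx).2).1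
      have : 0 < 1 / (4 * L ^ 2) := by positivity
      linarith
    exact chart_inj h.fr.sqε h.fr.ne12 (hpos q (mem_coe.1 hq)) (hpos q' (mem_coe.1 hq'))
      (congrArg Prod.fst he) (congrArg Prod.snd he)

open Classical in
/-- the windows of a strip in a box -/
noncomputable def Tw (L lam δ ε : ℝ) (p₁ p₂ : Pt) (N : ℝ) (W : Finset ι) (a : ι → ℝ)
    (J : ι → Finset (Pt × Pt)) (w₀ : ι) (G : Finset Pt) (al' t r s₀ h₀ : ℝ) (p : Pt) (x : ℝ) :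
    Finset ι :=
  {w ∈ W | ∃ q ∈ Ff L lam δ ε p₁ p₂ N a J w₀ G p w,
    st L δ p₁ p₂ p (kap (L ^ 8 * δ) ε p₁ p₂ q) = x ∧
      Box al' t r s₀ h₀ (kap (L ^ 8 * δ) ε p₁ p₂ q)}

/-- facts on the windows of a strip -/
theorem Sl.tw_facts (h : Sl s C0 K L lam δ Q W a b Y J w₀ ε p₁ p₂ P3 G0) {G : Finset Pt}
    (hG : G ⊆ G0) {p : Pt} (hp : p ∈ P3) {x al' t r s₀ h₀ : ℝ} {w : ι}
    (hw : w ∈ Tw L lam δ ε p₁ p₂ #Q W a J w₀ G al' t r s₀ h₀ p x) :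
    w ∈ W ∧ p ∈ Y w ∧ 1 / L < |a w - a w₀| ∧ |x - zz a ε p₁ p₂ p w| ≤ 4 * L * (L ^ 8 * δ) ∧
      1 / (2 * L) ≤ |ε * (a w - s0 p₁ p₂)| := by
  classical
  obtain ⟨hwW, q, hq, hx, _⟩ := mem_filter.1 hw
  have hF := (mem_filter.1 hq).1
  obtain ⟨hqG, hJ, ha, _⟩ := mem_filter.1 hF
  have hpw := (h.fr.pj.subJ w hwW _ hJ).1
  have hqw := (h.fr.pj.subJ w hwW _ hJ).2
  refine ⟨hwW, hpw, ha, ?_, (h.fr.cc_near (h.subP hp) hwW hpw hqw ha (h.hlow (hG hqG))).1⟩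
  rw [← hx]
  exact h.st_near hG hp hwW hF

/-- few windows on a strip -/
theorem Sl.card_tw (h : Sl s C0 K L lam δ Q W a b Y J w₀ ε p₁ p₂ P3 G0) {G : Finset Pt}
    (hG : G ⊆ G0) {p : Pt} (hp : p ∈ P3) (x al' t r s₀ h₀ : ℝ) :
    (#(Tw L lam δ ε p₁ p₂ #Q W a J w₀ G al' t r s₀ h₀ p x) : ℝ) ≤ L ^ 11 := by
  classical
  have hL0 := h.fr.L0
  have hL1 := h.fr.pj.L1
  have hδ := h.fr.pj.dpos
  have hd := h.d0
  have hLb := h.fr.Lbig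
  set T := Tw L lam δ ε p₁ p₂ #Q W a J w₀ G al' t r s₀ h₀ p x with hT
  rcases T.eq_empty_or_nonempty with h0 | ⟨w₁, hw₁⟩
  · rw [h0, card_empty]; push_cast; positivity
  obtain ⟨hw₁W, _, _, hx₁, hσ₁⟩ := h.tw_facts hG hp hw₁
  have hgl := (h.al_abs hp).2.2.2
  have h1 := card_sep_le T a (x := a w₁) (l := 10 * L ^ 10 * δ) hδ (by positivity)
    (fun w hw w' hw' hne => h.fr.pj.sepa w (h.tw_facts hG hp hw).1 w'
      (h.tw_facts hG hp hw').1 hne) (fun w hw => ?_)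
  · have e : 2 * (10 * L ^ 10 * δ) / δ = 20 * L ^ 10 := by
      rw [div_eq_iff hδ.ne']; ring
    rw [e] at h1
    have h2 : 1 ≤ L ^ 10 := one_le_pow₀ hL1
    have h3 : (22 : ℝ) ≤ L := by
      have : (22 : ℝ) ≤ 2 ^ 40 := by norm_num
      linarith
    calc (#T : ℝ) ≤ 20 * L ^ 10 + 2 := h1
      _ ≤ 22 * L ^ 10 := by linarith
      _ ≤ L * L ^ 10 := by gcongr
      _ = _ := by ring
  · obtain ⟨hwW, _, _, hx, hσ⟩ := h.tw_facts hG hp hw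
    set σ := ε * (a w - s0 p₁ p₂) with hσd
    set σ₁ := ε * (a w₁ - s0 p₁ p₂) with hσd₁
    have hL2 : 0 < 1 / (2 * L) := by positivity
    have hσ0 : σ ≠ 0 := abs_pos.1 (by linarith)
    have hσ10 : σ₁ ≠ 0 := abs_pos.1 (by linarith)
    have h2 : |gg p₁ p₂ p * (1 / σ) - gg p₁ p₂ p * (1 / σ₁)| ≤ 8 * L * (L ^ 8 * δ) := by
      calc _ ≤ |gg p₁ p₂ p * (1 / σ) - x| + |x - gg p₁ p₂ p * (1 / σ₁)| := abs_sub_le _ _ _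
        _ ≤ 4 * L * (L ^ 8 * δ) + 4 * L * (L ^ 8 * δ) := by
            rw [abs_sub_comm] at hx
            exact add_le_add hx hx₁
        _ = _ := by ring
    rw [← mul_sub, abs_mul] at h2
    have h3 : 1 / L * |1 / σ - 1 / σ₁| ≤ 8 * L * (L ^ 8 * δ) := by
      refine le_trans ?_ h2
      gcongr
    rw [one_div, inv_mul_le_iff₀ hL0] at h3
    have h4 : |a w - a w₁| = |σ| * |σ₁| * |1 / σ - 1 / σ₁| := by
      rw [← abs_mul, ← abs_mul]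
      have e1 : σ * σ₁ * (1 / σ - 1 / σ₁) = σ₁ - σ := by field_simp
      rw [e1, hσd, hσd₁, ← mul_sub, abs_mul, h.fr.absε, one_mul, abs_sub_comm]
      congr 1
      ring
    have h5 : |σ| ≤ 11 / 10 := by
      rw [hσd, abs_mul, h.fr.absε, one_mul]; exact h.fr.s0_abs hwW
    have h6 : |σ₁| ≤ 11 / 10 := by
      rw [hσd₁, abs_mul, h.fr.absε, one_mul]; exact h.fr.s0_abs hw₁W
    have h3' : |1 / σ - 1 / σ₁| ≤ 8 * (L ^ 10 * δ) := by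
      refine h3.trans (le_of_eq ?_); ring
    rw [h4]
    calc |σ| * |σ₁| * |1 / σ - 1 / σ₁| ≤ 11 / 10 * (11 / 10) * (8 * (L ^ 10 * δ)) := by gcongr
      _ ≤ 10 * L ^ 10 * δ := by
          have : 0 < L ^ 10 * δ := by positivity
          linarith


open Classical in
/-- a fibre of flags in the box -/
theorem Sl.flags_box (h : Sl s C0 K L lam δ Q W a b Y J w₀ ε p₁ p₂ P3 G0) {G : Finset Pt}
    (hG : G ⊆ G0) {al' t r s₀ h₀ : ℝ} (hal : |al'| ≤ L) (ht : L ^ 8 * δ ≤ t) (hr : L ^ 8 * δ ≤ r)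
    {S : Finset (ℝ × ℝ × ℝ)} (hS : ∀ q : Pt, Pol S q ↔ 1 / (4 * L ^ 2) ≤ hh ε p₁ p₂ q ∧
      |(q.1 - p₁.1) + al' * (q.1 - p₂.1) - s₀ * hh ε p₁ p₂ q| ≤ L ^ 2 * t * hh ε p₁ p₂ q ∧
      |(q.1 - p₂.1) - h₀ * hh ε p₁ p₂ q| ≤ L ^ 2 * r * hh ε p₁ p₂ q) {p : Pt} {w : ι} (hw : w ∈ W)
    (D : Finset (ℝ × ℝ)) (hD : ∀ k ∈ D, Box al' t r s₀ h₀ k) :
    #{q ∈ Fl L a J w₀ G p w | kap (L ^ 8 * δ) ε p₁ p₂ q ∈ D} ≤ #{q ∈ Y w | Pol S q} := by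
  refine card_le_card fun q hq => ?_
  obtain ⟨hqF, hqD⟩ := mem_filter.1 hq
  obtain ⟨hqG, hJ, _, _⟩ := mem_filter.1 hqF
  exact mem_filter.2 ⟨(h.fr.pj.subJ w hw _ hJ).2, h.pol_of_box hal ht hr hS (hG hqG) (hD _ hqD)⟩

theorem cube_sum {α : Type*} (T : Finset α) (y : α → ℝ) (hy : ∀ w, 0 ≤ y w) :
    (∑ w ∈ T, y w) ^ 3 ≤ (#T : ℝ) ^ 2 * ∑ w ∈ T, y w ^ 3 := by
  rcases T.eq_empty_or_nonempty with h0 | hne
  · rw [h0]; simp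
  · have h4 := pow_sum_div_card_le_sum_pow (s := T) (f := y) (n := 2) (fun w _ => hy w)
    rw [div_le_iff₀ (by have := hne.card_pos; positivity)] at h4
    have h5 : (∑ w ∈ T, y w) ^ 3 ≤ (∑ w ∈ T, y w ^ 3) * (#T : ℝ) ^ 2 := h4
    linarith

open Classical in
theorem Sl.step1 (h : Sl s C0 K L lam δ Q W a b Y J w₀ ε p₁ p₂ P3 G0) {G : Finset Pt}
    (hG : G ⊆ G0) {al' t r s₀ h₀ : ℝ} (hal : |al'| ≤ L) (ht : L ^ 8 * δ ≤ t) (hr : L ^ 8 * δ ≤ r)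
    {S : Finset (ℝ × ℝ × ℝ)} (hS : ∀ q : Pt, Pol S q ↔ 1 / (4 * L ^ 2) ≤ hh ε p₁ p₂ q ∧
      |(q.1 - p₁.1) + al' * (q.1 - p₂.1) - s₀ * hh ε p₁ p₂ q| ≤ L ^ 2 * t * hh ε p₁ p₂ q ∧
      |(q.1 - p₂.1) - h₀ * hh ε p₁ p₂ q| ≤ L ^ 2 * r * hh ε p₁ p₂ q) {p : Pt} (hp : p ∈ P3)
    (x : ℝ) :
    (#Q / lam ^ 2 * #{k ∈ Ya L lam δ ε p₁ p₂ #Q W a J w₀ G p |
        st L δ p₁ p₂ p k = x ∧ Box al' t r s₀ h₀ k} : ℝ)
      ≤ L ^ 5 * ∑ w ∈ Tw L lam δ ε p₁ p₂ #Q W a J w₀ G al' t r s₀ h₀ p x,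
        (#{q ∈ Y w | Pol S q} : ℝ) := by
  have hL0 := h.fr.L0
  have hl0 : 0 < lam := by linarith [h.fr.pj.lam1]
  set D : Finset (ℝ × ℝ) := {k ∈ Ya L lam δ ε p₁ p₂ #Q W a J w₀ G p |
    st L δ p₁ p₂ p k = x ∧ Box al' t r s₀ h₀ k} with hD
  set T := Tw L lam δ ε p₁ p₂ #Q W a J w₀ G al' t r s₀ h₀ p x with hT
  set kp := kap (L ^ 8 * δ) ε p₁ p₂ with hkp
  have h1 : ∀ k ∈ D, (#Q : ℝ) / lam ^ 2 ≤
      L ^ 5 * ∑ w ∈ T, (#{q ∈ Fl L a J w₀ G p w | kp q = k} : ℝ) := by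
    intro k hk
    obtain ⟨hkY, hkx, hkb⟩ := mem_filter.1 hk
    obtain ⟨q, hq, rfl⟩ := mem_image.1 hkY
    obtain ⟨w, hw, hqf⟩ := mem_biUnion.1 hq
    have hwT : w ∈ T := mem_filter.2 ⟨hw, q, hqf, hkx, hkb⟩
    have h2 := (mem_filter.1 hqf).2
    rw [div_le_iff₀ (by positivity)]
    have h3 : (#{q' ∈ Fl L a J w₀ G p w | kp q' = kp q} : ℝ)
        ≤ ∑ w ∈ T, (#{q' ∈ Fl L a J w₀ G p w | kp q' = kp q} : ℝ) :=
      single_le_sum (f := fun w => (#{q' ∈ Fl L a J w₀ G p w | kp q' = kp q} : ℝ))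
        (fun _ _ => Nat.cast_nonneg _) hwT
    calc (#Q : ℝ) ≤ L ^ 5 * lam ^ 2 * (#{q' ∈ Fl L a J w₀ G p w | kp q' = kp q} : ℝ) := h2
      _ ≤ L ^ 5 * lam ^ 2 * ∑ w ∈ T, (#{q' ∈ Fl L a J w₀ G p w | kp q' = kp q} : ℝ) := by gcongr
      _ = _ := by ring
  calc (#Q / lam ^ 2 * #D : ℝ) = ∑ k ∈ D, (#Q : ℝ) / lam ^ 2 := by
        rw [sum_const, nsmul_eq_mul, mul_comm]
    _ ≤ ∑ k ∈ D, L ^ 5 * ∑ w ∈ T, (#{q ∈ Fl L a J w₀ G p w | kp q = k} : ℝ) :=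
        sum_le_sum h1
    _ = L ^ 5 * ∑ w ∈ T, ∑ k ∈ D, (#{q ∈ Fl L a J w₀ G p w | kp q = k} : ℝ) := by
        rw [← mul_sum, sum_comm]
    _ ≤ _ := by
        refine mul_le_mul_of_nonneg_left (sum_le_sum fun w hw => ?_) (by positivity)
        have hwW := (h.tw_facts hG hp hw).1
        have h5 : (#{q ∈ Fl L a J w₀ G p w | kp q ∈ D} : ℝ)
            = ∑ k ∈ D, (#{q ∈ ({q ∈ Fl L a J w₀ G p w | kp q ∈ D} : Finset Pt) | kp q = k} : ℝ)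
            := by
          exact_mod_cast card_eq_sum_card_fiberwise (f := kp)
            (s := {q ∈ Fl L a J w₀ G p w | kp q ∈ D}) (t := D)
            (fun q hq => mem_coe.2 (mem_filter.1 (mem_coe.1 hq)).2)
        have h6 : ∀ k ∈ D, (#{q ∈ Fl L a J w₀ G p w | kp q = k} : ℝ)
            = #{q ∈ ({q ∈ Fl L a J w₀ G p w | kp q ∈ D} : Finset Pt) | kp q = k} := by
          intro k hk
          congr 2
          ext q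
          simp only [mem_filter]
          constructor
          · rintro ⟨h7, h8⟩
            exact ⟨⟨h7, by rw [h8]; exact hk⟩, h8⟩
          · rintro ⟨⟨h7, _⟩, h8⟩
            exact ⟨h7, h8⟩
        rw [sum_congr rfl h6, ← h5]
        exact_mod_cast h.flags_box hG hal ht hr hS hwW D (fun k hk => (mem_filter.1 hk).2.2)

open Classical in
theorem Sl.step3 (h : Sl s C0 K L lam δ Q W a b Y J w₀ ε p₁ p₂ P3 G0) {G : Finset Pt}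
    (hG : G ⊆ G0) {al' t r s₀ h₀ : ℝ} (hal : |al'| ≤ L) (ht : L ^ 8 * δ ≤ t) (hr : L ^ 8 * δ ≤ r)
    {S : Finset (ℝ × ℝ × ℝ)} (hS : ∀ q : Pt, Pol S q ↔ 1 / (4 * L ^ 2) ≤ hh ε p₁ p₂ q ∧
      |(q.1 - p₁.1) + al' * (q.1 - p₂.1) - s₀ * hh ε p₁ p₂ q| ≤ L ^ 2 * t * hh ε p₁ p₂ q ∧
      |(q.1 - p₂.1) - h₀ * hh ε p₁ p₂ q| ≤ L ^ 2 * r * hh ε p₁ p₂ q) {p : Pt} (hp : p ∈ P3)
    (x : ℝ) :
    (#Q / lam ^ 2 * #{k ∈ Ya L lam δ ε p₁ p₂ #Q W a J w₀ G p |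
        st L δ p₁ p₂ p k = x ∧ Box al' t r s₀ h₀ k} : ℝ) ^ 3
      ≤ L ^ 37 * ∑ w ∈ Tw L lam δ ε p₁ p₂ #Q W a J w₀ G al' t r s₀ h₀ p x,
        (#{q ∈ Y w | Pol S q} : ℝ) ^ 3 := by
  have hL0 := h.fr.L0
  have hl0 : 0 < lam := by linarith [h.fr.pj.lam1]
  have h1 := h.step1 hG hal ht hr hS hp x
  have h2 := h.card_tw hG hp x al' t r s₀ h₀
  set T := Tw L lam δ ε p₁ p₂ #Q W a J w₀ G al' t r s₀ h₀ p x with hT
  have h3 := cube_sum T (fun w => (#{q ∈ Y w | Pol S q} : ℝ)) (fun _ => Nat.cast_nonneg _)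
  have h5 : 0 ≤ ∑ w ∈ T, (#{q ∈ Y w | Pol S q} : ℝ) ^ 3 := sum_nonneg fun w _ => by positivity
  have h6 : (#T : ℝ) ^ 2 ≤ (L ^ 11) ^ 2 := by gcongr
  calc _ ≤ (L ^ 5 * ∑ w ∈ T, (#{q ∈ Y w | Pol S q} : ℝ)) ^ 3 := by
        refine pow_le_pow_left₀ (by positivity) h1 3
    _ = L ^ 15 * (∑ w ∈ T, (#{q ∈ Y w | Pol S q} : ℝ)) ^ 3 := by ring
    _ ≤ L ^ 15 * ((L ^ 11) ^ 2 * ∑ w ∈ T, (#{q ∈ Y w | Pol S q} : ℝ) ^ 3) := by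
        refine mul_le_mul_of_nonneg_left (h3.trans ?_) (by positivity)
        exact mul_le_mul_of_nonneg_right h6 h5
    _ = _ := by ring

open Classical in
theorem Sl.tw_cut (h : Sl s C0 K L lam δ Q W a b Y J w₀ ε p₁ p₂ P3 G0) {G : Finset Pt}
    (hG : G ⊆ G0) {al' t r s₀ h₀ : ℝ} (hal : |al'| ≤ L) (ht : L ^ 8 * δ ≤ t) (hr : L ^ 8 * δ ≤ r)
    {S : Finset (ℝ × ℝ × ℝ)} (hS : ∀ q : Pt, Pol S q ↔ 1 / (4 * L ^ 2) ≤ hh ε p₁ p₂ q ∧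
      |(q.1 - p₁.1) + al' * (q.1 - p₂.1) - s₀ * hh ε p₁ p₂ q| ≤ L ^ 2 * t * hh ε p₁ p₂ q ∧
      |(q.1 - p₂.1) - h₀ * hh ε p₁ p₂ q| ≤ L ^ 2 * r * hh ε p₁ p₂ q) {p : Pt}
    {x : ℝ} {w : ι} (hw : w ∈ Tw L lam δ ε p₁ p₂ #Q W a J w₀ G al' t r s₀ h₀ p x) :
    w ∈ ({w ∈ W | (#Q : ℝ) ≤ L ^ C0 * lam ^ 2 * #{p ∈ Y w | Pol S p}} : Finset ι) := by
  have hL1 := h.fr.pj.L1
  have hl0 : 0 < lam := by linarith [h.fr.pj.lam1]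
  obtain ⟨hwW, q, hqf, hkx, hkb⟩ := mem_filter.1 hw
  refine mem_filter.2 ⟨hwW, ?_⟩
  have h2 := (mem_filter.1 hqf).2
  have h3 := h.flags_box hG hal ht hr hS (p := p) hwW {kap (L ^ 8 * δ) ε p₁ p₂ q}
    (fun k hk => by rw [mem_singleton.1 hk]; exact hkb)
  have h4 : ({q' ∈ Fl L a J w₀ G p w | kap (L ^ 8 * δ) ε p₁ p₂ q' ∈
      ({kap (L ^ 8 * δ) ε p₁ p₂ q} : Finset (ℝ × ℝ))} : Finset Pt)
      = {q' ∈ Fl L a J w₀ G p w | kap (L ^ 8 * δ) ε p₁ p₂ q' = kap (L ^ 8 * δ) ε p₁ p₂ q} := by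
    ext q'; simp only [mem_filter, mem_singleton]
  rw [h4] at h3
  have h5 : (#{q' ∈ Fl L a J w₀ G p w | kap (L ^ 8 * δ) ε p₁ p₂ q'
      = kap (L ^ 8 * δ) ε p₁ p₂ q} : ℝ) ≤ #{p ∈ Y w | Pol S p} := by exact_mod_cast h3
  have h6 : L ^ 5 ≤ L ^ C0 := pow_le_pow_right₀ hL1 (by have := h.fr.C40; omega)
  calc (#Q : ℝ) ≤ L ^ 5 * lam ^ 2 * #{q' ∈ Fl L a J w₀ G p w |
        kap (L ^ 8 * δ) ε p₁ p₂ q' = kap (L ^ 8 * δ) ε p₁ p₂ q} := h2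
    _ ≤ L ^ C0 * lam ^ 2 * #{p ∈ Y w | Pol S p} := by gcongr

open Classical in
/-- each window is on few strips -/
theorem Sl.few_strips (h : Sl s C0 K L lam δ Q W a b Y J w₀ ε p₁ p₂ P3 G0) {G : Finset Pt}
    (hG : G ⊆ G0) {P' : Finset Pt}
    (hP' : P' ⊆ P3) (hinj : Set.InjOn (fun p : Pt => ⌊p.1 / δ⌋) P') (al' t r s₀ h₀ : ℝ) (w : ι) :
    ∑ p ∈ P', (#{x ∈ (Ya L lam δ ε p₁ p₂ #Q W a J w₀ G p).image (st L δ p₁ p₂ p) |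
      w ∈ Tw L lam δ ε p₁ p₂ #Q W a J w₀ G al' t r s₀ h₀ p x} : ℝ) ≤ L ^ 3 := by
  have hL0 := h.fr.L0
  have hL1 := h.fr.pj.L1
  have hd := h.d0
  have hLb := h.fr.Lbig
  set X : Pt → Finset ℝ := fun p => {x ∈ (Ya L lam δ ε p₁ p₂ #Q W a J w₀ G p).image
    (st L δ p₁ p₂ p) | w ∈ Tw L lam δ ε p₁ p₂ #Q W a J w₀ G al' t r s₀ h₀ p x} with hX
  have h1 : ∀ p ∈ P', (#(X p) : ℝ) ≤ if p ∈ Y w ∧ w ∈ W ∧ 1 / L < |a w - a w₀| then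
      10 * L else 0 := by
    intro p hp
    split_ifs with hc
    · have h2 := card_rd (x := zz a ε p₁ p₂ p w) (l := 4 * L * (L ^ 8 * δ)) hd (by positivity)
        (X p) (fun x hx => ?_) (fun x hx => ?_)
      · have e : 2 * (4 * L * (L ^ 8 * δ)) / (L ^ 8 * δ) = 8 * L := by
          rw [div_eq_iff hd.ne']; ring
        rw [e] at h2
        linarith
      · obtain ⟨k, _, rfl⟩ := mem_image.1 (mem_filter.1 hx).1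
        exact ⟨_, rfl⟩
      · exact (h.tw_facts hG (hP' hp) (mem_filter.1 hx).2).2.2.2.1
    · have : X p = ∅ := by
        rw [eq_empty_iff_forall_notMem]
        intro x hx
        have h2 := h.tw_facts hG (hP' hp) (mem_filter.1 hx).2
        exact hc ⟨h2.2.1, h2.1, h2.2.2.1⟩
      rw [this, card_empty]; simp
  calc ∑ p ∈ P', (#(X p) : ℝ) ≤ ∑ p ∈ P', (if p ∈ Y w ∧ w ∈ W ∧ 1 / L < |a w - a w₀| then
      10 * L else 0) := sum_le_sum h1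
    _ = #{p ∈ P' | p ∈ Y w ∧ w ∈ W ∧ 1 / L < |a w - a w₀|} * (10 * L) := by
        rw [← sum_filter, sum_const, nsmul_eq_mul]
    _ ≤ 36 * L * (10 * L) := by
        by_cases hw : w ∈ W ∧ 1 / L < |a w - a w₀|
        · have h3 := h.mult hP' hinj hw.1 hw.2
          have h4 : (#{p ∈ P' | p ∈ Y w ∧ w ∈ W ∧ 1 / L < |a w - a w₀|} : ℝ)
              ≤ #{p ∈ P' | p ∈ Y w} := by
            have h44 : ({p ∈ P' | p ∈ Y w ∧ w ∈ W ∧ 1 / L < |a w - a w₀|} : Finset Pt) ⊆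
                {p ∈ P' | p ∈ Y w} := fun p hp => by
              simp only [mem_filter] at hp ⊢
              exact ⟨hp.1, hp.2.1⟩
            exact_mod_cast card_le_card h44
          have h5 := h4.trans h3
          gcongr
        · have : ({p ∈ P' | p ∈ Y w ∧ w ∈ W ∧ 1 / L < |a w - a w₀|} : Finset Pt) = ∅ := by
            rw [filter_eq_empty_iff]
            rintro p _ ⟨_, h5⟩
            exact hw h5
          rw [this, card_empty]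
          push_cast
          rw [zero_mul]
          positivity
    _ = 360 * (L * L) := by ring
    _ ≤ L * (L * L) := by
        have : (360 : ℝ) ≤ 2 ^ 40 := by norm_num
        have : (360 : ℝ) ≤ L := by linarith
        gcongr
    _ = _ := by ring

open Classical in
theorem Sl.step5 (h : Sl s C0 K L lam δ Q W a b Y J w₀ ε p₁ p₂ P3 G0) {G : Finset Pt}
    (hG : G ⊆ G0) {al' t r s₀ h₀ : ℝ} (hal : |al'| ≤ L) (ht : L ^ 8 * δ ≤ t) (hr : L ^ 8 * δ ≤ r)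
    {S : Finset (ℝ × ℝ × ℝ)} (hS : ∀ q : Pt, Pol S q ↔ 1 / (4 * L ^ 2) ≤ hh ε p₁ p₂ q ∧
      |(q.1 - p₁.1) + al' * (q.1 - p₂.1) - s₀ * hh ε p₁ p₂ q| ≤ L ^ 2 * t * hh ε p₁ p₂ q ∧
      |(q.1 - p₂.1) - h₀ * hh ε p₁ p₂ q| ≤ L ^ 2 * r * hh ε p₁ p₂ q) {P' : Finset Pt}
    (hP' : P' ⊆ P3) (hinj : Set.InjOn (fun p : Pt => ⌊p.1 / δ⌋) P') :
    ∑ p ∈ P', ∑ x ∈ (Ya L lam δ ε p₁ p₂ #Q W a J w₀ G p).image (st L δ p₁ p₂ p),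
      ∑ w ∈ Tw L lam δ ε p₁ p₂ #Q W a J w₀ G al' t r s₀ h₀ p x, (#{q ∈ Y w | Pol S q} : ℝ) ^ 3
    ≤ L ^ 3 * ∑ w ∈ W with (#Q : ℝ) ≤ L ^ C0 * lam ^ 2 * #{p ∈ Y w | Pol S p},
      (#{q ∈ Y w | Pol S q} : ℝ) ^ 3 := by
  set Wc : Finset ι := {w ∈ W | (#Q : ℝ) ≤ L ^ C0 * lam ^ 2 * #{p ∈ Y w | Pol S p}} with hWc
  set y : ι → ℝ := fun w => (#{q ∈ Y w | Pol S q} : ℝ) ^ 3 with hy
  have hy0 : ∀ w, 0 ≤ y w := fun w => by positivity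
  have h1 : ∀ p ∈ P', ∑ x ∈ (Ya L lam δ ε p₁ p₂ #Q W a J w₀ G p).image (st L δ p₁ p₂ p),
      ∑ w ∈ Tw L lam δ ε p₁ p₂ #Q W a J w₀ G al' t r s₀ h₀ p x, y w
      = ∑ w ∈ Wc, (#{x ∈ (Ya L lam δ ε p₁ p₂ #Q W a J w₀ G p).image (st L δ p₁ p₂ p) |
        w ∈ Tw L lam δ ε p₁ p₂ #Q W a J w₀ G al' t r s₀ h₀ p x} : ℝ) * y w := by
    intro p _
    have h2 : ∀ x ∈ (Ya L lam δ ε p₁ p₂ #Q W a J w₀ G p).image (st L δ p₁ p₂ p),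
        ∑ w ∈ Tw L lam δ ε p₁ p₂ #Q W a J w₀ G al' t r s₀ h₀ p x, y w
        = ∑ w ∈ Wc, if w ∈ Tw L lam δ ε p₁ p₂ #Q W a J w₀ G al' t r s₀ h₀ p x then y w else 0 := by
      intro x _
      rw [← sum_filter]
      refine sum_congr ?_ fun _ _ => rfl
      ext w
      rw [mem_filter]
      exact ⟨fun hw => ⟨h.tw_cut hG hal ht hr hS hw, hw⟩, fun hw => hw.2⟩
    rw [sum_congr rfl h2, sum_comm]
    refine sum_congr rfl fun w _ => ?_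
    rw [← sum_filter, sum_const, nsmul_eq_mul]
  rw [sum_congr rfl h1, sum_comm, mul_sum]
  refine sum_le_sum fun w _ => ?_
  rw [← sum_mul]
  exact mul_le_mul_of_nonneg_right (h.few_strips hG hP' hinj al' t r s₀ h₀ w) (hy0 w)

end sl

/-- **[STARC]** -/
theorem stStarC : StStarC := by
  classical
  refine ⟨41, 40, fun s C0 hC K L lam δ Q ι W a b Y J w₀ ε p₁ p₂ P3 G0 h P' hP' hinj G hG al' hal
    t r s₀ h₀ ht hr => ?_⟩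
  have hL0 := h.fr.L0
  have hl0 : 0 < lam := by linarith [h.fr.pj.lam1]
  obtain ⟨S, hS8, hS⟩ := exists_pol ε p₁ p₂ (1 / (4 * L ^ 2)) al' s₀ (L ^ 2 * t) h₀ (L ^ 2 * r)
  have h5 := h.step5 hG hal ht hr hS hP' hinj
  have h6 := h.fr.pj.star S hS8
  have h7 := h.pol_card hS
  calc _ ≤ ∑ p ∈ P', ∑ x ∈ (Ya L lam δ ε p₁ p₂ #Q W a J w₀ G p).image (st L δ p₁ p₂ p),
        L ^ 37 * ∑ w ∈ Tw L lam δ ε p₁ p₂ #Q W a J w₀ G al' t r s₀ h₀ p x,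
          (#{q ∈ Y w | Pol S q} : ℝ) ^ 3 :=
        sum_le_sum fun p hp => sum_le_sum fun x _ => h.step3 hG hal ht hr hS (hP' hp) x
    _ = L ^ 37 * ∑ p ∈ P', ∑ x ∈ (Ya L lam δ ε p₁ p₂ #Q W a J w₀ G p).image (st L δ p₁ p₂ p),
        ∑ w ∈ Tw L lam δ ε p₁ p₂ #Q W a J w₀ G al' t r s₀ h₀ p x,
          (#{q ∈ Y w | Pol S q} : ℝ) ^ 3 := by
        simp_rw [← mul_sum]
    _ ≤ L ^ 37 * (L ^ 3 * (L * (#Q / lam) * (#{p ∈ Q | Pol S p} : ℝ) ^ 2)) := by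
        refine mul_le_mul_of_nonneg_left (h5.trans ?_) (by positivity)
        exact mul_le_mul_of_nonneg_left h6 (by positivity)
    _ = L ^ 41 * (#Q / lam) * (#{p ∈ Q | Pol S p} : ℝ) ^ 2 := by ring
    _ ≤ _ := by
        have h8 : (#{p ∈ Q | Pol S p} : ℝ)
            ≤ #{k ∈ P0c L ε p₁ p₂ Q | Box al' (L ^ 2 * t) (L ^ 2 * r) s₀ h₀ k} := by
          exact_mod_cast h7
        gcongr

end Vale.Agent.P065.UB.H759
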