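import Vale.Agent.P065.UB.Defs

/-!
# P065, upper bound, line P (polynomial spread): the interface PJ (helper759)

`PJ` is the output of the normalised front end (windows of one length `δ`, tubes, rich points,
joined pairs, non concentration, (STAR)); `StU2` is the contradiction.
`K` is the small loss (`K ^ C0 ≤ L`), `L` the loss of transversality (`L ^ C0 ≤ lam`).
-/

set_option autoImplicit false

namespace Vale.Agent.P065.UB.H759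

open Finset Vale.Agent.P065.UB

/-- a convex polygon: finitely many closed half-planes `s.1 x + s.2.1 y ≤ s.2.2` -/
def Pol (S : Finset (ℝ × ℝ × ℝ)) (v : Pt) : Prop :=
  ∀ s ∈ S, s.1 * v.1 + s.2.1 * v.2 ≤ s.2.2

open Classical in
/-- the normalised structure: `Q` points with abscissa in `[0, 1]`, windows `w ∈ W` with tube
`|y - a w x - b w| ≤ 4 δ`, rich points `Y w` in the tube, joined pairs `J w` (pairwise disjoint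
sets of pairs). -/
structure PJ (C0 : ℕ) (K L lam δ : ℝ) (Q : Finset Pt) {ι : Type} (W : Finset ι)
    (a b : ι → ℝ) (Y : ι → Finset Pt) (J : ι → Finset (Pt × Pt)) : Prop where
  two : 2 ≤ K
  KL : K ^ C0 ≤ L
  Llam : L ^ C0 ≤ lam
  dpos : 0 < δ
  dlam : δ * lam ^ 2 ≤ L
  neQ : Q.Nonempty
  box : ∀ p ∈ Q, 0 ≤ p.1 ∧ p.1 ≤ 1
  cW : lam ^ 2 ≤ K * #W
  cW' : (#W : ℝ) ≤ K * lam ^ 2
  slope : ∀ w ∈ W, 0 ≤ a w ∧ a w ≤ 1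
  sepa : ∀ w ∈ W, ∀ w' ∈ W, w ≠ w' → δ ≤ |a w - a w'|
  subY : ∀ w ∈ W, Y w ⊆ Q
  tube : ∀ w ∈ W, ∀ p ∈ Y w, |p.2 - a w * p.1 - b w| ≤ 4 * δ
  cY : ∀ w ∈ W, lam * #(Y w) ≤ K * #Q
  touch : ∀ q ∈ Q, (#{w ∈ W | q ∈ Y w} : ℝ) ≤ K * lam
  subJ : ∀ w ∈ W, ∀ e ∈ J w, e.1 ∈ Y w ∧ e.2 ∈ Y w
  symJ : ∀ w ∈ W, ∀ e ∈ J w, e.swap ∈ J w
  cJ : ∀ w ∈ W, (#Q : ℝ) ^ 2 ≤ K * lam ^ 2 * #(J w)
  disJ : ∀ w ∈ W, ∀ w' ∈ W, w ≠ w' → Disjoint (J w) (J w')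
  ncu : ∀ w ∈ W, ∀ x : ℝ, K ^ C0 * lam * #{p ∈ Y w | |p.1 - x| ≤ 1 / L} ≤ #Q
  ncx : ∀ q ∈ Q, ∀ x : ℝ, K ^ C0 * #{w ∈ W | q ∈ Y w ∧ |a w - x| ≤ 1 / L} ≤ lam
  star : ∀ S : Finset (ℝ × ℝ × ℝ), #S ≤ 8 →
    (∑ w ∈ W with (#Q : ℝ) ≤ L ^ C0 * lam ^ 2 * #{p ∈ Y w | Pol S p},
      (#{p ∈ Y w | Pol S p} : ℝ) ^ 3) ≤ L * (#Q / lam) * (#{p ∈ Q | Pol S p} : ℝ) ^ 2

/-- **U2**, line P -/
def StU2 : Prop :=
  ∃ C0 : ℕ, ∀ (K L lam δ : ℝ) (Q : Finset Pt) (ι : Type) (W : Finset ι) (a b : ι → ℝ)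
    (Y : ι → Finset Pt) (J : ι → Finset (Pt × Pt)), PJ C0 K L lam δ Q W a b Y J → False

end Vale.Agent.P065.UB.H759
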