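import Vale.Agent.P065.UB.P.Defs
import Vale.Agent.P065.UB.H759.PJ

/-!
# P065, upper bound, line P: the block [P-J] (literal Prop, helper759)

From the structure `NW3` of helper728 (after the steps 0-7) to `PJ`.  The only new ingredient is
LEMMA JOIN of helper537.
-/

set_option autoImplicit false

namespace Vale.Agent.P065.UB.H759

open Finset Vale.Agent.P065.UB Vale.Agent.P065.UB.P

/-- LEMMA JOIN (helper537), used as a hypothesis here -/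
def StJoin : Prop :=
  ∃ C : ℝ, 0 < C ∧ ∀ (P : Finset Pt) (k : ℕ) (Q : Finset Pt) (I : Set ℝ), Good P → Q ⊆ P →
    I.OrdConnected → ∀ (F : Finset (Pt × Pt)) (M : Finset Pt), F ⊆ EdIn P k Q I →
    (∀ e ∈ F, e.1 ∈ M ∧ e.2 ∈ M) →
    (#F : ℝ) ^ 6 ≤ C * ((#(Tch P k Q I) : ℝ) + #(EdBd P k Q I)) ^ 6 * (#(Sw M I) + 1)

/-- **[P-J]**: rich points (ends of edges between points of large degree), pruned joined pairs,
(STAR). -/
def StPJ : Prop :=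
  ∃ s : ℕ, ∀ C0 : ℕ, ∃ c : ℕ, ∀ (K k3 k4 Kp ks Kpp L lam N del : ℝ) (P : Finset Pt) (k : ℕ)
    (Q : Finset Pt) (W₀ W : Finset ℕ) (a b be : ℕ → ℝ) (T T' : ℕ → Finset Pt),
    2 ≤ K → K ^ c * k3 ≤ 1 → K ^ c * k4 ≤ 1 → 1 ≤ k3 * Kp → K ^ c ≤ Kp → 0 < ks →
    Kp ^ c * ks ≤ 1 → 1 ≤ ks * Kpp → Kpp ^ c ≤ L → L ^ c ≤ lam → lam ^ 5 ≤ N → (c : ℝ) ≤ lam →
    NW3 K k3 k4 Kp ks Kpp lam N del P k Q W₀ W a b be T T' →
    ∃ (Y : ℕ → Finset Pt) (J : ℕ → Finset (Pt × Pt)),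
      PJ C0 (K ^ s) L lam del Q W a (fun w => be w + del) Y J

end Vale.Agent.P065.UB.H759
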