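import Vale.Agent.P065.UB.H759.U2Defs

/-!
# P065, upper bound, line P: basic consequences of `PJ`, block [THIRD] (helper759)
-/

set_option autoImplicit false

namespace Vale.Agent.P065.UB.H759

open Finset Vale.Agent.P065.UB

/-- `δ`-separated reals in an interval -/
theorem card_sep_le {ι : Type*} (S : Finset ι) (a : ι → ℝ) {δ x l : ℝ} (hδ : 0 < δ) (hl0 : 0 ≤ l)
    (hs : ∀ w ∈ S, ∀ w' ∈ S, w ≠ w' → δ ≤ |a w - a w'|) (hl : ∀ w ∈ S, |a w - x| ≤ l) :
    (#S : ℝ) ≤ 2 * l / δ + 2 := by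
  classical
  have hinj : Set.InjOn (fun w => ⌊a w / δ⌋) S := by
    intro w hw w' hw' h
    by_contra hne
    have h1 := Int.abs_sub_lt_one_of_floor_eq_floor h
    rw [← sub_div, abs_div, abs_of_pos hδ, div_lt_one hδ] at h1
    linarith [hs w hw w' hw' hne]
  have hmaps : S.image (fun w => ⌊a w / δ⌋) ⊆ Icc ⌊(x - l) / δ⌋ ⌊(x + l) / δ⌋ := by
    intro k hk
    obtain ⟨w, hw, rfl⟩ := mem_image.1 hk
    have h := abs_le.1 (hl w hw)
    rw [mem_Icc]
    constructor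
    · refine Int.floor_le_floor ?_
      gcongr
      linarith
    · refine Int.floor_le_floor ?_
      gcongr
      linarith
  have h4 : #S ≤ #(Icc ⌊(x - l) / δ⌋ ⌊(x + l) / δ⌋) := by
    rw [← card_image_of_injOn hinj]
    exact card_le_card hmaps
  rw [Int.card_Icc] at h4
  have hle : ⌊(x - l) / δ⌋ ≤ ⌊(x + l) / δ⌋ := by
    refine Int.floor_le_floor ?_
    gcongr
    linarith
  have h5 : ((⌊(x + l) / δ⌋ + 1 - ⌊(x - l) / δ⌋).toNat : ℝ) ≤ 2 * l / δ + 2 := by
    have h6 : ((⌊(x + l) / δ⌋ + 1 - ⌊(x - l) / δ⌋).toNat : ℤ)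
        = ⌊(x + l) / δ⌋ + 1 - ⌊(x - l) / δ⌋ := Int.toNat_of_nonneg (by omega)
    have h7 : ((⌊(x + l) / δ⌋ + 1 - ⌊(x - l) / δ⌋).toNat : ℝ)
        = (⌊(x + l) / δ⌋ : ℝ) + 1 - ⌊(x - l) / δ⌋ := by exact_mod_cast h6
    rw [h7]
    have h8 := Int.floor_le ((x + l) / δ)
    have h9 := Int.lt_floor_add_one ((x - l) / δ)
    have h10 : (x + l) / δ - (x - l) / δ = 2 * l / δ := by ring
    linarith
  calc (#S : ℝ) ≤ ((⌊(x + l) / δ⌋ + 1 - ⌊(x - l) / δ⌋).toNat : ℝ) := by exact_mod_cast h4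
    _ ≤ _ := h5

section basic

variable {C0 : ℕ} {K L lam δ : ℝ} {Q : Finset Pt} {ι : Type} {W : Finset ι} {a b : ι → ℝ}
  {Y : ι → Finset Pt} {J : ι → Finset (Pt × Pt)}

theorem PJ.K1 (h : PJ C0 K L lam δ Q W a b Y J) : 1 ≤ K := by linarith [h.two]

theorem PJ.powK (h : PJ C0 K L lam δ Q W a b Y J) {s : ℕ} (hs : s ≤ C0) : K ^ s ≤ L :=
  (pow_le_pow_right₀ h.K1 hs).trans h.KL

theorem PJ.L1 (h : PJ C0 K L lam δ Q W a b Y J) : 1 ≤ L :=
  (one_le_pow₀ h.K1).trans h.KL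

theorem PJ.L2 (h : PJ C0 K L lam δ Q W a b Y J) (hC : 1 ≤ C0) : 2 ≤ L := by
  have := h.powK hC
  rw [pow_one] at this
  linarith [h.two]

theorem PJ.powL (h : PJ C0 K L lam δ Q W a b Y J) {s : ℕ} (hs : s ≤ C0) : L ^ s ≤ lam :=
  (pow_le_pow_right₀ h.L1 hs).trans h.Llam

theorem PJ.lam1 (h : PJ C0 K L lam δ Q W a b Y J) : 1 ≤ lam :=
  (one_le_pow₀ h.L1).trans h.Llam

theorem PJ.two_pow (h : PJ C0 K L lam δ Q W a b Y J) (s : ℕ) : (2 : ℝ) ^ s ≤ K ^ s :=
  pow_le_pow_left₀ (by norm_num) h.two s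

theorem PJ.N0 (h : PJ C0 K L lam δ Q W a b Y J) : (0 : ℝ) < #Q := by
  exact_mod_cast h.neQ.card_pos

/-- windows have many rich points -/
theorem PJ.cardY (h : PJ C0 K L lam δ Q W a b Y J) {w : ι} (hw : w ∈ W) :
    (#Q : ℝ) ≤ K * lam * #(Y w) := by
  classical
  have hJ : (#(J w) : ℝ) ≤ (#(Y w) : ℝ) ^ 2 := by
    have h1 : J w ⊆ Y w ×ˢ Y w := fun e he => by
      rw [mem_product]; exact h.subJ w hw e he
    have h2 := card_le_card h1
    rw [card_product, ← sq] at h2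
    exact_mod_cast h2
  have h1 := h.cJ w hw
  have hK := h.K1
  have hl := h.lam1
  have h2 : (#Q : ℝ) ^ 2 ≤ (K * lam * #(Y w)) ^ 2 := by
    calc (#Q : ℝ) ^ 2 ≤ K * lam ^ 2 * #(J w) := h1
      _ ≤ K * lam ^ 2 * (#(Y w) : ℝ) ^ 2 := by gcongr
      _ ≤ K ^ 2 * lam ^ 2 * (#(Y w) : ℝ) ^ 2 := by
          gcongr
          nlinarith
      _ = _ := by ring
  exact le_of_sq_le_sq h2 (by positivity)

open Classical in
/-- most rich points are far from a given abscissa -/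
theorem PJ.farY (h : PJ C0 K L lam δ Q W a b Y J) (hC : 3 ≤ C0) {w : ι} (hw : w ∈ W) (x : ℝ) :
    (#Q : ℝ) ≤ 2 * K * lam * #{p ∈ Y w | 1 / L < |p.1 - x|} := by
  have h1 := h.cardY hw
  have h2 := h.ncu w hw x
  have hK := h.two
  have hl := h.lam1
  have hsplit : (#(Y w) : ℝ) = #{p ∈ Y w | |p.1 - x| ≤ 1 / L} + #{p ∈ Y w | 1 / L < |p.1 - x|} := by
    have := card_filter_add_card_filter_not (s := Y w) (fun p : Pt => |p.1 - x| ≤ 1 / L)
    simp only [not_le] at this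
    exact_mod_cast this.symm
  have hKC : 2 * K ≤ K ^ C0 := by
    calc 2 * K ≤ K * K := by nlinarith
      _ = K ^ 2 := by ring
      _ ≤ K ^ C0 := pow_le_pow_right₀ h.K1 (by omega)
  have h3 : 2 * K * lam * #{p ∈ Y w | |p.1 - x| ≤ 1 / L} ≤ (#Q : ℝ) := by
    refine le_trans ?_ h2
    gcongr
  have h4 : (#Q : ℝ) ≤ K * lam * #{p ∈ Y w | |p.1 - x| ≤ 1 / L}
      + K * lam * #{p ∈ Y w | 1 / L < |p.1 - x|} := by
    calc (#Q : ℝ) ≤ K * lam * #(Y w) := h1
      _ = _ := by rw [hsplit]; ring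
  linarith

end basic

/-- **[THIRD]** -/
theorem stThird : StThird := by
  classical
  refine ⟨8, fun C0 hC K L lam δ Q ι W a b Y J h x _ _ ρ hρ => ?_⟩
  have hK := h.two
  have hK1 := h.K1
  have hl := h.lam1
  have hL1 := h.L1
  have hN := h.N0
  have hδ := h.dpos
  set V : Finset ι := {w ∈ W | |x.2 - a w * x.1 - b w| ≤ ρ * δ} with hV
  have hVW : ∀ w ∈ V, w ∈ W ∧ |x.2 - a w * x.1 - b w| ≤ ρ * δ := fun w hw => mem_filter.1 hw
  -- lower bound
  have hlow : (#V : ℝ) * #Q ≤ 2 * K * lam * ∑ w ∈ V, (#{p ∈ Y w | 1 / L < |p.1 - x.1|} : ℝ) := by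
    rw [mul_sum]
    calc (#V : ℝ) * #Q = ∑ w ∈ V, (#Q : ℝ) := by rw [sum_const, nsmul_eq_mul]
      _ ≤ _ := sum_le_sum fun w hw => h.farY (by omega) (hVW w hw).1 x.1
  -- upper bound
  have hup : ∑ w ∈ V, (#{p ∈ Y w | 1 / L < |p.1 - x.1|} : ℝ) ≤ #Q * (2 * ((ρ + 4) * L) + 2) := by
    have h1 : ∑ w ∈ V, (#{p ∈ Y w | 1 / L < |p.1 - x.1|} : ℝ)
        = ∑ p ∈ Q, (#{w ∈ V | p ∈ Y w ∧ 1 / L < |p.1 - x.1|} : ℝ) := by
      have h2 : ∀ w ∈ V, (#{p ∈ Y w | 1 / L < |p.1 - x.1|} : ℝ)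
          = ∑ p ∈ Q, if p ∈ Y w ∧ 1 / L < |p.1 - x.1| then (1 : ℝ) else 0 := by
        intro w hw
        have h3 : ({p ∈ Y w | 1 / L < |p.1 - x.1|} : Finset Pt)
            = {p ∈ Q | p ∈ Y w ∧ 1 / L < |p.1 - x.1|} := by
          ext p
          simp only [mem_filter]
          constructor
          · rintro ⟨h4, h5⟩
            exact ⟨h.subY w (hVW w hw).1 h4, h4, h5⟩
          · rintro ⟨_, h4, h5⟩
            exact ⟨h4, h5⟩
        rw [h3, card_filter]
        push_cast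
        rfl
      rw [sum_congr rfl h2, sum_comm]
      refine sum_congr rfl fun p _ => ?_
      rw [card_filter]
      push_cast
      rfl
    rw [h1]
    calc ∑ p ∈ Q, (#{w ∈ V | p ∈ Y w ∧ 1 / L < |p.1 - x.1|} : ℝ)
        ≤ ∑ p ∈ Q, (2 * ((ρ + 4) * L) + 2) := by
          refine sum_le_sum fun p _ => ?_
          by_cases hp : 1 / L < |p.1 - x.1|
          · have hL0 : 0 < L := by linarith
            have hne : p.1 - x.1 ≠ 0 := by
              intro h0
              rw [h0, abs_zero] at hp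
              have : 0 < 1 / L := by positivity
              linarith
            have h5 := card_sep_le ({w ∈ V | p ∈ Y w ∧ 1 / L < |p.1 - x.1|}) a
              (x := (p.2 - x.2) / (p.1 - x.1)) (l := (ρ + 4) * δ * L) hδ (by positivity)
              (fun w hw w' hw' hne' => h.sepa w (hVW w (mem_filter.1 hw).1).1 w'
                (hVW w' (mem_filter.1 hw').1).1 hne') ?_
            · refine h5.trans (le_of_eq ?_)
              field_simp
            · intro w hw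
              have hw1 := mem_filter.1 hw
              have h6 := h.tube w (hVW w hw1.1).1 p hw1.2.1
              have h7 := (hVW w hw1.1).2
              have h8 : |(a w - (p.2 - x.2) / (p.1 - x.1)) * (p.1 - x.1)| ≤ (ρ + 4) * δ := by
                have : (a w - (p.2 - x.2) / (p.1 - x.1)) * (p.1 - x.1)
                    = (x.2 - a w * x.1 - b w) - (p.2 - a w * p.1 - b w) := by
                  rw [sub_mul, div_mul_cancel₀ _ hne]; ring
                rw [this]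
                calc _ ≤ |x.2 - a w * x.1 - b w| + |p.2 - a w * p.1 - b w| := abs_sub _ _
                  _ ≤ ρ * δ + 4 * δ := add_le_add h7 h6
                  _ = _ := by ring
              rw [abs_mul] at h8
              have h9 : |a w - (p.2 - x.2) / (p.1 - x.1)| * (1 / L)
                  ≤ |a w - (p.2 - x.2) / (p.1 - x.1)| * |p.1 - x.1| := by
                gcongr
              have h10 : |a w - (p.2 - x.2) / (p.1 - x.1)| * (1 / L) ≤ (ρ + 4) * δ := h9.trans h8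
              rw [mul_one_div, div_le_iff₀ hL0] at h10
              exact h10
          · have : ({w ∈ V | p ∈ Y w ∧ 1 / L < |p.1 - x.1|} : Finset ι) = ∅ := by
              rw [filter_eq_empty_iff]
              rintro w _ ⟨_, h2⟩
              exact hp h2
            rw [this, card_empty]
            push_cast
            positivity
      _ = _ := by rw [sum_const, nsmul_eq_mul]
  have h3 : (#V : ℝ) * #Q ≤ (2 * K * lam * (2 * ((ρ + 4) * L) + 2)) * #Q := by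
    calc (#V : ℝ) * #Q ≤ 2 * K * lam * ∑ w ∈ V, (#{p ∈ Y w | 1 / L < |p.1 - x.1|} : ℝ) := hlow
      _ ≤ 2 * K * lam * (#Q * (2 * ((ρ + 4) * L) + 2)) := by gcongr
      _ = _ := by ring
  have h4 : (#V : ℝ) ≤ 2 * K * lam * (2 * ((ρ + 4) * L) + 2) := le_of_mul_le_mul_right h3 hN
  have h5 : 24 * K ≤ L := by
    have h6 := h.powK (s := 8) hC
    have h7 : (2 : ℝ) ^ 5 ≤ K ^ 5 := h.two_pow 5
    have h8 : K ≤ K ^ 3 := by
      calc K = K ^ 1 := (pow_one K).symm
        _ ≤ K ^ 3 := pow_le_pow_right₀ hK1 (by norm_num)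
    calc 24 * K ≤ 2 ^ 5 * K := by linarith
      _ ≤ K ^ 5 * K ^ 3 := by gcongr
      _ = K ^ 8 := by ring
      _ ≤ L := h6
  have h6 : 2 * K * lam * (2 * ((ρ + 4) * L) + 2) ≤ 24 * K * (ρ * L * lam) := by
    have : 2 * ((ρ + 4) * L) + 2 ≤ 12 * (ρ * L) := by nlinarith
    calc 2 * K * lam * (2 * ((ρ + 4) * L) + 2) ≤ 2 * K * lam * (12 * (ρ * L)) := by gcongr
      _ = _ := by ring
  calc (#V : ℝ) ≤ 24 * K * (ρ * L * lam) := h4.trans h6
    _ ≤ L * (ρ * L * lam) := by gcongr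
    _ = _ := by ring

end Vale.Agent.P065.UB.H759
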