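import Vale.Agent.P065.UB.H759.Base

/-!
# P065, upper bound, line P: the chart which sends the line `p₁ p₂` to infinity (helper759)
-/

set_option autoImplicit false

namespace Vale.Agent.P065.UB.H759

open Finset Vale.Agent.P065.UB

/-- slope of the line at infinity of the chart -/
noncomputable def s0 (p₁ p₂ : Pt) : ℝ := (p₂.2 - p₁.2) / (p₂.1 - p₁.1)

/-- signed height over the line `p₁ p₂` -/
noncomputable def hh (ε : ℝ) (p₁ p₂ q : Pt) : ℝ := ε * (q.2 - p₁.2 - s0 p₁ p₂ * (q.1 - p₁.1))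

/-- position of the line `p q` in the pencil of `p` -/
noncomputable def cc (ε : ℝ) (p₁ p₂ p q : Pt) : ℝ := (q.1 - p.1) / hh ε p₁ p₂ q

/-- the frame -/
structure Fr (C0 : ℕ) (K L lam δ : ℝ) (Q : Finset Pt) {ι : Type} (W : Finset ι)
    (a b : ι → ℝ) (Y : ι → Finset Pt) (J : ι → Finset (Pt × Pt)) (w₀ : ι) (ε : ℝ)
    (p₁ p₂ : Pt) : Prop where
  pj : PJ C0 K L lam δ Q W a b Y J
  C40 : 40 ≤ C0
  hw₀ : w₀ ∈ W
  hε : ε = 1 ∨ ε = -1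
  m1 : p₁ ∈ Y w₀
  m2 : p₂ ∈ Y w₀
  far : 1 / L < |p₁.1 - p₂.1|

section fr

variable {C0 : ℕ} {K L lam δ : ℝ} {Q : Finset Pt} {ι : Type} {W : Finset ι} {a b : ι → ℝ}
  {Y : ι → Finset Pt} {J : ι → Finset (Pt × Pt)} {w₀ : ι} {ε : ℝ} {p₁ p₂ : Pt}

theorem Fr.Lbig (h : Fr C0 K L lam δ Q W a b Y J w₀ ε p₁ p₂) : (2 : ℝ) ^ 40 ≤ L :=
  (h.pj.two_pow 40).trans (h.pj.powK h.C40)

theorem Fr.L0 (h : Fr C0 K L lam δ Q W a b Y J w₀ ε p₁ p₂) : 0 < L := by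
  have := h.Lbig
  have h2 : (0 : ℝ) < 2 ^ 40 := by positivity
  linarith

/-- `δ` is tiny -/
theorem Fr.small (h : Fr C0 K L lam δ Q W a b Y J w₀ ε p₁ p₂) : δ * L ^ 30 * 2 ^ 40 ≤ 1 := by
  have h1 := h.pj.dlam
  have h2 : L ^ 40 ≤ lam := h.pj.powL h.C40
  have hL1 := h.pj.L1
  have hL0 := h.L0
  have hδ := h.pj.dpos
  have h3 : δ * L ^ 80 ≤ L := by
    calc δ * L ^ 80 = δ * (L ^ 40) ^ 2 := by ring
      _ ≤ δ * lam ^ 2 := by gcongr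
      _ ≤ L := h1
  have h4 : δ * L ^ 30 * 2 ^ 40 * L ^ 49 ≤ 1 * L ^ 49 := by
    calc δ * L ^ 30 * 2 ^ 40 * L ^ 49 ≤ δ * L ^ 30 * L * L ^ 49 := by
          gcongr
          exact h.Lbig
      _ = δ * L ^ 80 := by ring
      _ ≤ L := h3
      _ = L ^ 1 := (pow_one L).symm
      _ ≤ L ^ 49 := pow_le_pow_right₀ hL1 (by norm_num)
      _ = _ := by ring
  exact le_of_mul_le_mul_right h4 (by positivity)

theorem Fr.small' (h : Fr C0 K L lam δ Q W a b Y J w₀ ε p₁ p₂) {k : ℕ} (hk : k ≤ 30) :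
    δ * L ^ k ≤ 1 / 2 ^ 40 := by
  rw [le_div_iff₀ (by positivity)]
  refine le_trans ?_ h.small
  have hL1 := h.pj.L1
  have hδ := h.pj.dpos
  gcongr

theorem Fr.absε (h : Fr C0 K L lam δ Q W a b Y J w₀ ε p₁ p₂) : |ε| = 1 := by
  rcases h.hε with h | h <;> simp [h]

theorem Fr.sqε (h : Fr C0 K L lam δ Q W a b Y J w₀ ε p₁ p₂) : ε * ε = 1 := by
  rcases h.hε with h | h <;> simp [h]

theorem Fr.boxY (h : Fr C0 K L lam δ Q W a b Y J w₀ ε p₁ p₂) {w : ι} (hw : w ∈ W) {p : Pt}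
    (hp : p ∈ Y w) : 0 ≤ p.1 ∧ p.1 ≤ 1 := h.pj.box p (h.pj.subY w hw hp)

theorem Fr.ne12 (h : Fr C0 K L lam δ Q W a b Y J w₀ ε p₁ p₂) : p₂.1 - p₁.1 ≠ 0 := by
  intro h0
  have h1 := h.far
  rw [abs_sub_comm, h0, abs_zero] at h1
  have := h.L0
  have : 0 < 1 / L := by positivity
  linarith

/-- two points of a tube -/
theorem Fr.two (h : Fr C0 K L lam δ Q W a b Y J w₀ ε p₁ p₂) {w : ι} (hw : w ∈ W) {p q : Pt}
    (hp : p ∈ Y w) (hq : q ∈ Y w) : |(q.2 - p.2) - a w * (q.1 - p.1)| ≤ 8 * δ := by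
  have h1 := h.pj.tube w hw p hp
  have h2 := h.pj.tube w hw q hq
  have : (q.2 - p.2) - a w * (q.1 - p.1)
      = (q.2 - a w * q.1 - b w) - (p.2 - a w * p.1 - b w) := by ring
  rw [this]
  calc _ ≤ |q.2 - a w * q.1 - b w| + |p.2 - a w * p.1 - b w| := abs_sub _ _
    _ ≤ 4 * δ + 4 * δ := add_le_add h2 h1
    _ = _ := by ring

/-- the slope of the line at infinity -/
theorem Fr.s0_near (h : Fr C0 K L lam δ Q W a b Y J w₀ ε p₁ p₂) :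
    |s0 p₁ p₂ - a w₀| ≤ 8 * δ * L := by
  have h1 := h.two h.hw₀ h.m1 h.m2
  have hL0 := h.L0
  have h2 : (s0 p₁ p₂ - a w₀) * (p₂.1 - p₁.1) = (p₂.2 - p₁.2) - a w₀ * (p₂.1 - p₁.1) := by
    unfold s0
    rw [sub_mul, div_mul_cancel₀ _ h.ne12]
  rw [← h2, abs_mul] at h1
  have h3 : |s0 p₁ p₂ - a w₀| * (1 / L) ≤ |s0 p₁ p₂ - a w₀| * |p₂.1 - p₁.1| := by
    have := h.far
    rw [abs_sub_comm] at this
    gcongr
  have h4 := h3.trans h1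
  rw [mul_one_div, div_le_iff₀ hL0] at h4
  exact h4

theorem Fr.s0_abs (h : Fr C0 K L lam δ Q W a b Y J w₀ ε p₁ p₂) {w : ι} (hw : w ∈ W) :
    |a w - s0 p₁ p₂| ≤ 11 / 10 := by
  have h1 := abs_le.1 h.s0_near
  have h2 := h.pj.slope w hw
  have h3 := h.pj.slope w₀ h.hw₀
  have h4 := h.small' (k := 1) (by norm_num)
  rw [pow_one] at h4
  have h5 : (1 : ℝ) / 2 ^ 40 ≤ 1 / 100 := by norm_num
  rw [abs_le]
  constructor <;> nlinarith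

theorem Fr.s0_abs' (h : Fr C0 K L lam δ Q W a b Y J w₀ ε p₁ p₂) : |s0 p₁ p₂| ≤ 11 / 10 := by
  have h1 := abs_le.1 h.s0_near
  have h3 := h.pj.slope w₀ h.hw₀
  have h4 := h.small' (k := 1) (by norm_num)
  rw [pow_one] at h4
  have h5 : (1 : ℝ) / 2 ^ 40 ≤ 1 / 100 := by norm_num
  rw [abs_le]
  constructor <;> nlinarith

/-- differences of heights -/
theorem hh_sub (ε : ℝ) (p₁ p₂ p q : Pt) : hh ε p₁ p₂ q - hh ε p₁ p₂ p
    = ε * ((q.2 - p.2) - s0 p₁ p₂ * (q.1 - p.1)) := by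
  unfold hh; ring

/-- the apexes are almost on the line at infinity -/
theorem Fr.hh_apex (h : Fr C0 K L lam δ Q W a b Y J w₀ ε p₁ p₂) {p : Pt} (hp : p ∈ Y w₀) :
    |hh ε p₁ p₂ p| ≤ 16 * δ * L := by
  have h1 := h.two h.hw₀ h.m1 hp
  have h2 := h.s0_near
  have h3 := h.boxY h.hw₀ h.m1
  have h4 := h.boxY h.hw₀ hp
  have hδ := h.pj.dpos
  have hL1 := h.pj.L1
  have h5 : hh ε p₁ p₂ p = ε * (((p.2 - p₁.2) - a w₀ * (p.1 - p₁.1))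
      - (s0 p₁ p₂ - a w₀) * (p.1 - p₁.1)) := by unfold hh; ring
  rw [h5, abs_mul, h.absε, one_mul]
  have h6 : |p.1 - p₁.1| ≤ 1 := by rw [abs_le]; constructor <;> linarith
  calc _ ≤ |(p.2 - p₁.2) - a w₀ * (p.1 - p₁.1)| + |(s0 p₁ p₂ - a w₀) * (p.1 - p₁.1)| :=
        abs_sub _ _
    _ ≤ 8 * δ + 8 * δ * L * 1 := by
        rw [abs_mul]
        gcongr
    _ ≤ 16 * δ * L := by nlinarith

theorem Fr.hh1 (_h : Fr C0 K L lam δ Q W a b Y J w₀ ε p₁ p₂) : hh ε p₁ p₂ p₁ = 0 := by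
  unfold hh; ring

theorem Fr.hh2 (h : Fr C0 K L lam δ Q W a b Y J w₀ ε p₁ p₂) : hh ε p₁ p₂ p₂ = 0 := by
  unfold hh s0
  rw [div_mul_cancel₀ _ h.ne12]
  ring

/-- the points joined to `p₁` are high -/
theorem Fr.hh_low (h : Fr C0 K L lam δ Q W a b Y J w₀ ε p₁ p₂) {q : Pt}
    (hj : Jn L W a J w₀ p₁ q) (hs : 0 < ε * (q.2 - a w₀ * q.1 - b w₀)) :
    1 / (4 * L ^ 2) ≤ hh ε p₁ p₂ q := by
  obtain ⟨w, hw, hJ, ha, hx⟩ := hj
  have hp1 := (h.pj.subJ w hw _ hJ).1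
  have hq1 := (h.pj.subJ w hw _ hJ).2
  have h1 := h.two hw hp1 hq1
  have hL0 := h.L0
  have hL1 := h.pj.L1
  have hδ := h.pj.dpos
  simp only at h1 hp1 hq1 hx
  -- the difference of the affine functions of the tube `w₀`
  have h2 : |(a w - a w₀) * (q.1 - p₁.1)| ≥ 1 / L ^ 2 := by
    rw [abs_mul, ge_iff_le]
    calc 1 / L ^ 2 = 1 / L * (1 / L) := by field_simp
      _ ≤ |a w - a w₀| * |q.1 - p₁.1| := by
          rw [abs_sub_comm] at hx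
          exact mul_le_mul ha.le hx.le (by positivity) (abs_nonneg _)
  have h3 := h.pj.tube w₀ h.hw₀ p₁ h.m1
  have h4 : |q.2 - a w₀ * q.1 - b w₀| ≥ 1 / L ^ 2 - 12 * δ := by
    have e : (a w - a w₀) * (q.1 - p₁.1) = (q.2 - a w₀ * q.1 - b w₀)
        - (p₁.2 - a w₀ * p₁.1 - b w₀) - ((q.2 - p₁.2) - a w * (q.1 - p₁.1)) := by ring
    rw [e] at h2
    have h5 : |(q.2 - a w₀ * q.1 - b w₀) - (p₁.2 - a w₀ * p₁.1 - b w₀)
        - ((q.2 - p₁.2) - a w * (q.1 - p₁.1))| ≤ |q.2 - a w₀ * q.1 - b w₀| + 4 * δ + 8 * δ := by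
      calc _ ≤ |(q.2 - a w₀ * q.1 - b w₀) - (p₁.2 - a w₀ * p₁.1 - b w₀)|
            + |(q.2 - p₁.2) - a w * (q.1 - p₁.1)| := abs_sub _ _
        _ ≤ |q.2 - a w₀ * q.1 - b w₀| + |p₁.2 - a w₀ * p₁.1 - b w₀|
            + |(q.2 - p₁.2) - a w * (q.1 - p₁.1)| := by
            gcongr
            exact abs_sub _ _
        _ ≤ _ := by gcongr
    linarith
  have h5 : ε * (q.2 - a w₀ * q.1 - b w₀) = |q.2 - a w₀ * q.1 - b w₀| := by
    rcases h.hε with he | he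
    · rw [he] at hs ⊢
      rw [one_mul] at hs ⊢
      exact (abs_of_pos hs).symm
    · rw [he] at hs ⊢
      have : q.2 - a w₀ * q.1 - b w₀ < 0 := by linarith
      rw [abs_of_neg this]; ring
  have h6 : hh ε p₁ p₂ q = ε * (q.2 - a w₀ * q.1 - b w₀)
      - ε * ((p₁.2 - a w₀ * p₁.1 - b w₀) + (s0 p₁ p₂ - a w₀) * (q.1 - p₁.1)) := by
    unfold hh; ring
  have hqx := h.boxY hw hq1
  have hpx := h.boxY hw hp1
  have h7 : |q.1 - p₁.1| ≤ 1 := by rw [abs_le]; constructor <;> linarith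
  have h8 : |ε * ((p₁.2 - a w₀ * p₁.1 - b w₀) + (s0 p₁ p₂ - a w₀) * (q.1 - p₁.1))|
      ≤ 4 * δ + 8 * δ * L := by
    rw [abs_mul, h.absε, one_mul]
    calc _ ≤ |p₁.2 - a w₀ * p₁.1 - b w₀| + |(s0 p₁ p₂ - a w₀) * (q.1 - p₁.1)| := abs_add_le _ _
      _ ≤ 4 * δ + 8 * δ * L * 1 := by
          rw [abs_mul]
          have := h.s0_near
          gcongr
      _ = _ := by ring
  have h9 := (abs_le.1 h8).2
  have h10 : 24 * δ * L ≤ 3 / (4 * L ^ 2) := by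
    rw [le_div_iff₀ (by positivity)]
    have := h.small' (k := 3) (by norm_num)
    have h11 : (1 : ℝ) / 2 ^ 40 ≤ 1 / 1000 := by norm_num
    nlinarith
  have h11 : 1 / (4 * L ^ 2) + 3 / (4 * L ^ 2) = 1 / L ^ 2 := by field_simp; norm_num
  nlinarith

theorem Fr.hh_pos (h : Fr C0 K L lam δ Q W a b Y J w₀ ε p₁ p₂) {q : Pt}
    (hj : Jn L W a J w₀ p₁ q) (hs : 0 < ε * (q.2 - a w₀ * q.1 - b w₀)) : 0 < hh ε p₁ p₂ q := by
  have := h.hh_low hj hs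
  have := h.L0
  have : 0 < 1 / (4 * L ^ 2) := by positivity
  linarith

/-- the points joined to `p₁` have bounded height -/
theorem Fr.hh_up (h : Fr C0 K L lam δ Q W a b Y J w₀ ε p₁ p₂) {q : Pt}
    (hj : Jn L W a J w₀ p₁ q) : hh ε p₁ p₂ q ≤ 3 := by
  obtain ⟨w, hw, hJ, ha, hx⟩ := hj
  have hp1 := (h.pj.subJ w hw _ hJ).1
  have hq1 := (h.pj.subJ w hw _ hJ).2
  simp only at hp1 hq1 hx
  have h1 := h.two hw hp1 hq1
  have h2 : hh ε p₁ p₂ q = ε * (((q.2 - p₁.2) - a w * (q.1 - p₁.1))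
      + (a w - s0 p₁ p₂) * (q.1 - p₁.1)) := by unfold hh; ring
  have hqx := h.boxY hw hq1
  have hpx := h.boxY hw hp1
  have h7 : |q.1 - p₁.1| ≤ 1 := by rw [abs_le]; constructor <;> linarith
  have h3 : |hh ε p₁ p₂ q| ≤ 8 * δ + 11 / 10 := by
    rw [h2, abs_mul, h.absε, one_mul]
    calc _ ≤ |(q.2 - p₁.2) - a w * (q.1 - p₁.1)| + |(a w - s0 p₁ p₂) * (q.1 - p₁.1)| :=
          abs_add_le _ _
      _ ≤ 8 * δ + 11 / 10 * 1 := by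
          rw [abs_mul]
          have := h.s0_abs hw
          gcongr
      _ = _ := by ring
  have h4 := h.small' (k := 0) (by norm_num)
  rw [pow_zero, mul_one] at h4
  have h5 : (1 : ℝ) / 2 ^ 40 ≤ 1 / 100 := by norm_num
  have := le_abs_self (hh ε p₁ p₂ q)
  linarith

/-- the position of a tube in a pencil -/
theorem Fr.cc_near (h : Fr C0 K L lam δ Q W a b Y J w₀ ε p₁ p₂) {p q : Pt} {w : ι}
    (hp : p ∈ Y w₀) (hw : w ∈ W) (hpw : p ∈ Y w) (hqw : q ∈ Y w) (ha : 1 / L < |a w - a w₀|)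
    (hq : 1 / (4 * L ^ 2) ≤ hh ε p₁ p₂ q) :
    1 / (2 * L) ≤ |ε * (a w - s0 p₁ p₂)| ∧
    |cc ε p₁ p₂ p q - 1 / (ε * (a w - s0 p₁ p₂))| ≤ 192 * L ^ 4 * δ := by
  have hL0 := h.L0
  have hL1 := h.pj.L1
  have hδ := h.pj.dpos
  set σ := ε * (a w - s0 p₁ p₂) with hσ
  have hσ1 : 1 / (2 * L) ≤ |σ| := by
    rw [hσ, abs_mul, h.absε, one_mul]
    have h1 := h.s0_near
    have h2 : |a w - a w₀| ≤ |a w - s0 p₁ p₂| + |s0 p₁ p₂ - a w₀| := abs_sub_le _ _ _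
    have h3 : 8 * δ * L ≤ 1 / (2 * L) := by
      rw [le_div_iff₀ (by positivity)]
      have := h.small' (k := 2) (by norm_num)
      have h11 : (1 : ℝ) / 2 ^ 40 ≤ 1 / 1000 := by norm_num
      nlinarith
    have h4 : 1 / L = 1 / (2 * L) + 1 / (2 * L) := by field_simp; norm_num
    linarith
  refine ⟨hσ1, ?_⟩
  have hσ0 : σ ≠ 0 := by
    intro h0
    rw [h0, abs_zero] at hσ1
    have : 0 < 1 / (2 * L) := by positivity
    linarith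
  have hh0 : 0 < hh ε p₁ p₂ q := by
    have : 0 < 1 / (4 * L ^ 2) := by positivity
    linarith
  have e1 : |hh ε p₁ p₂ q - σ * (q.1 - p.1)| ≤ 24 * δ * L := by
    have e : hh ε p₁ p₂ q - σ * (q.1 - p.1) = hh ε p₁ p₂ p
        + ε * ((q.2 - p.2) - a w * (q.1 - p.1)) := by
      have := hh_sub ε p₁ p₂ p q
      rw [hσ]
      linear_combination this
    rw [e]
    have h5 := h.hh_apex hp
    have h6 := h.two hw hpw hqw
    calc _ ≤ |hh ε p₁ p₂ p| + |ε * ((q.2 - p.2) - a w * (q.1 - p.1))| := abs_add_le _ _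
      _ ≤ 16 * δ * L + 8 * δ := by
          rw [abs_mul ε, h.absε, one_mul]
          gcongr
      _ ≤ _ := by nlinarith
  have e2 : cc ε p₁ p₂ p q - 1 / σ = -(hh ε p₁ p₂ q - σ * (q.1 - p.1)) / (σ * hh ε p₁ p₂ q) := by
    unfold cc
    field_simp
    ring
  rw [e2, abs_div, abs_neg, abs_mul, abs_of_pos hh0]
  rw [div_le_iff₀ (by positivity)]
  calc |hh ε p₁ p₂ q - σ * (q.1 - p.1)| ≤ 24 * δ * L := e1
    _ = 192 * L ^ 4 * δ * (1 / (2 * L) * (1 / (4 * L ^ 2))) := by field_simp; norm_num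
    _ ≤ _ := by gcongr

/-- bounds for the coordinates -/
theorem Fr.cc_abs (h : Fr C0 K L lam δ Q W a b Y J w₀ ε p₁ p₂) {p q : Pt}
    (hp : 0 ≤ p.1 ∧ p.1 ≤ 1) (hqx : 0 ≤ q.1 ∧ q.1 ≤ 1)
    (hq : 1 / (4 * L ^ 2) ≤ hh ε p₁ p₂ q) : |cc ε p₁ p₂ p q| ≤ 4 * L ^ 2 := by
  have hL0 := h.L0
  have hh0 : 0 < hh ε p₁ p₂ q := by
    have : 0 < 1 / (4 * L ^ 2) := by positivity
    linarith
  have h7 : |q.1 - p.1| ≤ 1 := by rw [abs_le]; constructor <;> linarith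
  unfold cc
  rw [abs_div, abs_of_pos hh0, div_le_iff₀ hh0]
  calc |q.1 - p.1| ≤ 1 := h7
    _ = 4 * L ^ 2 * (1 / (4 * L ^ 2)) := by field_simp
    _ ≤ _ := by gcongr

/-- the coordinates are not small -/
theorem Fr.cc_low (h : Fr C0 K L lam δ Q W a b Y J w₀ ε p₁ p₂) {p q : Pt} {w : ι}
    (hp : p ∈ Y w₀) (hw : w ∈ W) (hpw : p ∈ Y w) (hqw : q ∈ Y w) (ha : 1 / L < |a w - a w₀|)
    (hq : 1 / (4 * L ^ 2) ≤ hh ε p₁ p₂ q) : 9 / 10 ≤ |cc ε p₁ p₂ p q| := by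
  have hL0 := h.L0
  obtain ⟨h1, h2⟩ := h.cc_near hp hw hpw hqw ha hq
  have h3 : |ε * (a w - s0 p₁ p₂)| ≤ 11 / 10 := by
    rw [abs_mul, h.absε, one_mul]; exact h.s0_abs hw
  have h4 : 10 / 11 ≤ |1 / (ε * (a w - s0 p₁ p₂))| := by
    rw [abs_div, abs_one]
    have h5 : 0 < |ε * (a w - s0 p₁ p₂)| := by
      have : 0 < 1 / (2 * L) := by positivity
      linarith
    rw [le_div_iff₀ h5]
    linarith
  have h5 : |1 / (ε * (a w - s0 p₁ p₂))| ≤ |cc ε p₁ p₂ p q|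
      + |cc ε p₁ p₂ p q - 1 / (ε * (a w - s0 p₁ p₂))| := by
    have := abs_sub_abs_le_abs_sub (1 / (ε * (a w - s0 p₁ p₂))) (cc ε p₁ p₂ p q)
    rw [abs_sub_comm] at this
    linarith
  have h6 := h.small' (k := 4) (by norm_num)
  have h11 : (1 : ℝ) / 2 ^ 40 ≤ 1 / 1000000 := by norm_num
  nlinarith

/-- the inverse of the chart is Lipschitz -/
theorem Fr.inv_lip (h : Fr C0 K L lam δ Q W a b Y J w₀ ε p₁ p₂) {q q' : Pt} {θ : ℝ}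
    (hθ : 0 ≤ θ) (hqx : 0 ≤ q.1 ∧ q.1 ≤ 1) (hq : 1 / (4 * L ^ 2) ≤ hh ε p₁ p₂ q)
    (hq3 : hh ε p₁ p₂ q ≤ 3)
    (hq' : 1 / (4 * L ^ 2) ≤ hh ε p₁ p₂ q') (hq3' : hh ε p₁ p₂ q' ≤ 3)
    (h1 : |cc ε p₁ p₂ p₁ q - cc ε p₁ p₂ p₁ q'| ≤ θ)
    (h2 : |cc ε p₁ p₂ p₂ q - cc ε p₁ p₂ p₂ q'| ≤ θ) :
    |q.1 - q'.1| ≤ 76 * L ^ 3 * θ ∧ |q.2 - q'.2| ≤ 110 * L ^ 3 * θ := by
  have hL0 := h.L0
  have hL1 := h.pj.L1
  set H := hh ε p₁ p₂ q with hH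
  set H' := hh ε p₁ p₂ q' with hH'
  have hH0 : 0 < H := by
    have : 0 < 1 / (4 * L ^ 2) := by positivity
    linarith
  have hH0' : 0 < H' := by
    have : 0 < 1 / (4 * L ^ 2) := by positivity
    linarith
  have e1 : cc ε p₁ p₂ p₁ q - cc ε p₁ p₂ p₂ q = (p₂.1 - p₁.1) / H := by
    unfold cc; rw [← hH]; field_simp; ring
  have e1' : cc ε p₁ p₂ p₁ q' - cc ε p₁ p₂ p₂ q' = (p₂.1 - p₁.1) / H' := by
    unfold cc; rw [← hH']; field_simp; ring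
  have h3 : |(p₂.1 - p₁.1) * (H' - H)| ≤ 2 * θ * (H * H') := by
    have e2 : (p₂.1 - p₁.1) * (H' - H) = ((p₂.1 - p₁.1) / H - (p₂.1 - p₁.1) / H') * (H * H') := by
      field_simp
    rw [e2, abs_mul, abs_of_pos (mul_pos hH0 hH0')]
    gcongr
    rw [← e1, ← e1']
    have : cc ε p₁ p₂ p₁ q - cc ε p₁ p₂ p₂ q - (cc ε p₁ p₂ p₁ q' - cc ε p₁ p₂ p₂ q')
        = (cc ε p₁ p₂ p₁ q - cc ε p₁ p₂ p₁ q') - (cc ε p₁ p₂ p₂ q - cc ε p₁ p₂ p₂ q') := by ring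
    rw [this]
    calc _ ≤ |cc ε p₁ p₂ p₁ q - cc ε p₁ p₂ p₁ q'| + |cc ε p₁ p₂ p₂ q - cc ε p₁ p₂ p₂ q'| :=
          abs_sub _ _
      _ ≤ _ := by linarith
  have h4 : |H' - H| ≤ 18 * L * θ := by
    rw [abs_mul] at h3
    have h5 : 1 / L * |H' - H| ≤ |p₂.1 - p₁.1| * |H' - H| := by
      have := h.far
      rw [abs_sub_comm] at this
      gcongr
    have h6 : 2 * θ * (H * H') ≤ 2 * θ * (3 * 3) := by gcongr
    have h7 := h5.trans (h3.trans h6)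
    rw [one_div, inv_mul_le_iff₀ hL0] at h7
    linarith
  have h5 : q.1 - q'.1 = cc ε p₁ p₂ p₁ q * (H - H')
      + (cc ε p₁ p₂ p₁ q - cc ε p₁ p₂ p₁ q') * H' := by
    unfold cc; rw [← hH, ← hH']; field_simp; ring
  have hc := h.cc_abs (p := p₁) (h.boxY h.hw₀ h.m1) hqx hq
  have h6 : |q.1 - q'.1| ≤ 76 * L ^ 3 * θ := by
    rw [h5]
    calc _ ≤ |cc ε p₁ p₂ p₁ q * (H - H')| + |(cc ε p₁ p₂ p₁ q - cc ε p₁ p₂ p₁ q') * H'| :=
          abs_add_le _ _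
      _ ≤ 4 * L ^ 2 * (18 * L * θ) + θ * 3 := by
          rw [abs_mul, abs_mul, abs_of_pos hH0', abs_sub_comm H H']
          gcongr
      _ ≤ _ := by
          have : 1 ≤ L ^ 3 := one_le_pow₀ hL1
          have : 3 * θ ≤ 4 * (L ^ 3 * θ) := by nlinarith
          nlinarith
  refine ⟨h6, ?_⟩
  have h7 : q.2 - q'.2 = ε * (H - H') + s0 p₁ p₂ * (q.1 - q'.1) := by
    have e3 : H - H' = ε * ((q.2 - q'.2) - s0 p₁ p₂ * (q.1 - q'.1)) := by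
      rw [hH, hH']; exact hh_sub ε p₁ p₂ q' q
    rw [e3, ← mul_assoc, h.sqε]
    ring
  rw [h7]
  calc _ ≤ |ε * (H - H')| + |s0 p₁ p₂ * (q.1 - q'.1)| := abs_add_le _ _
    _ ≤ 18 * L * θ + 11 / 10 * (76 * L ^ 3 * θ) := by
        rw [abs_mul, abs_mul, h.absε, one_mul, abs_sub_comm H H']
        have := h.s0_abs'
        gcongr
    _ ≤ _ := by
        have h8 : L ≤ L ^ 3 := by
          calc L = L ^ 1 := (pow_one L).symm
            _ ≤ L ^ 3 := pow_le_pow_right₀ hL1 (by norm_num)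
        have : L * θ ≤ L ^ 3 * θ := by gcongr
        nlinarith

end fr

end Vale.Agent.P065.UB.H759
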