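import Vale.Agent.P065.UB.H759.Sl

/-!
# P065, upper bound, line P: the classes of strips (helper759)
-/

set_option autoImplicit false

namespace Vale.Agent.P065.UB.H759

open Finset Vale.Agent.P065.UB
open Vale.Agent.P118.OF (Sep)
open Vale.Agent.P065.H626 (Box)

/-- the multiplier of the apex `p` -/
noncomputable def al (p₁ p₂ p : Pt) : ℝ := (p.1 - p₁.1) / (p₂.1 - p.1)

noncomputable def gg (p₁ p₂ p : Pt) : ℝ := (p₂.1 - p₁.1) / (p₂.1 - p.1)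

theorem cc_comb {ε : ℝ} {p₁ p₂ p q : Pt} (h : p₂.1 - p.1 ≠ 0) :
    cc ε p₁ p₂ p₁ q + al p₁ p₂ p * cc ε p₁ p₂ p₂ q = gg p₁ p₂ p * cc ε p₁ p₂ p q := by
  unfold cc al gg
  by_cases h0 : hh ε p₁ p₂ q = 0
  · rw [h0]; simp
  · field_simp; ring

theorem gg_eq {p₁ p₂ p : Pt} (h : p₂.1 - p.1 ≠ 0) : gg p₁ p₂ p = 1 + al p₁ p₂ p := by
  unfold al gg
  field_simp; ring

section sl

variable {s C0 : ℕ} {K L lam δ : ℝ} {Q : Finset Pt} {ι : Type} {W : Finset ι} {a b : ι → ℝ}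
  {Y : ι → Finset Pt} {J : ι → Finset (Pt × Pt)} {w₀ : ι} {ε : ℝ} {p₁ p₂ : Pt}
  {P3 G0 : Finset Pt}

theorem Sl.ne2 (h : Sl s C0 K L lam δ Q W a b Y J w₀ ε p₁ p₂ P3 G0) {p : Pt} (hp : p ∈ P3) :
    p₂.1 - p.1 ≠ 0 := by
  intro h0
  have h1 := (h.farP p hp).2
  rw [abs_sub_comm, h0, abs_zero] at h1
  have := h.fr.L0
  have : 0 < 1 / L := by positivity
  linarith

theorem Sl.al_abs (h : Sl s C0 K L lam δ Q W a b Y J w₀ ε p₁ p₂ P3 G0) {p : Pt} (hp : p ∈ P3) :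
    1 / L ≤ |al p₁ p₂ p| ∧ |al p₁ p₂ p| ≤ L ∧ |gg p₁ p₂ p| ≤ L ∧ 1 / L ≤ |gg p₁ p₂ p| := by
  have hL0 := h.fr.L0
  have h1 := h.farP p hp
  have h2 := h.fr.boxY h.fr.hw₀ (h.subP hp)
  have h3 := h.fr.boxY h.fr.hw₀ h.fr.m1
  have h4 := h.fr.boxY h.fr.hw₀ h.fr.m2
  have h5 : 1 / L < |p₂.1 - p.1| := by rw [abs_sub_comm]; exact h1.2
  have h5' : 1 / L < |p₂.1 - p₁.1| := by rw [abs_sub_comm]; exact h.fr.far
  have h6 : |p₂.1 - p.1| ≤ 1 := by rw [abs_le]; constructor <;> linarith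
  have h7 : |p.1 - p₁.1| ≤ 1 := by rw [abs_le]; constructor <;> linarith
  have h8 : |p₂.1 - p₁.1| ≤ 1 := by rw [abs_le]; constructor <;> linarith
  have hpos : 0 < |p₂.1 - p.1| := by
    have : 0 < 1 / L := by positivity
    linarith
  have hinv : L * |p₂.1 - p.1| ≥ 1 := by
    have : 1 / L * L ≤ |p₂.1 - p.1| * L := by gcongr
    rw [one_div, inv_mul_cancel₀ hL0.ne'] at this
    linarith
  unfold al gg
  rw [abs_div, abs_div]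
  refine ⟨?_, ?_, ?_, ?_⟩
  · rw [le_div_iff₀ hpos]
    calc 1 / L * |p₂.1 - p.1| ≤ 1 / L * 1 := by gcongr
      _ = 1 / L := mul_one _
      _ ≤ _ := h1.1.le
  · rw [div_le_iff₀ hpos]
    linarith
  · rw [div_le_iff₀ hpos]
    linarith
  · rw [le_div_iff₀ hpos]
    calc 1 / L * |p₂.1 - p.1| ≤ 1 / L * 1 := by gcongr
      _ = 1 / L := mul_one _
      _ ≤ _ := h5'.le

theorem Sl.hlow (h : Sl s C0 K L lam δ Q W a b Y J w₀ ε p₁ p₂ P3 G0) {q : Pt} (hq : q ∈ G0) :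
    1 / (4 * L ^ 2) ≤ hh ε p₁ p₂ q :=
  h.fr.hh_low (h.jn q hq).1 (h.jn q hq).2.2

theorem Sl.d0 (h : Sl s C0 K L lam δ Q W a b Y J w₀ ε p₁ p₂ P3 G0) : 0 < L ^ 8 * δ := by
  have := h.fr.L0
  have := h.fr.pj.dpos
  positivity

theorem Fr.d192 (h : Fr C0 K L lam δ Q W a b Y J w₀ ε p₁ p₂) :
    192 * L ^ 4 * δ ≤ L ^ 8 * δ := by
  have h1 := h.Lbig
  have hL1 := h.pj.L1
  have hδ := h.pj.dpos
  have h2 : (192 : ℝ) ≤ L ^ 4 := by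
    calc (192 : ℝ) ≤ 2 ^ 40 := by norm_num
      _ ≤ L := h1
      _ = L ^ 1 := (pow_one L).symm
      _ ≤ L ^ 4 := pow_le_pow_right₀ hL1 (by norm_num)
  calc 192 * L ^ 4 * δ ≤ L ^ 4 * L ^ 4 * δ := by gcongr
    _ = _ := by ring

open Classical in
/-- the flags of the apex `p` on the window `w` -/
noncomputable def Fl (L : ℝ) (a : ι → ℝ) (J : ι → Finset (Pt × Pt)) (w₀ : ι) (G : Finset Pt)
    (p : Pt) (w : ι) : Finset Pt :=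
  {q ∈ G | (p, q) ∈ J w ∧ 1 / L < |a w - a w₀| ∧ 1 / L < |p.1 - q.1|}

/-- the position of the window `w` in the class of `p` -/
noncomputable def zz (a : ι → ℝ) (ε : ℝ) (p₁ p₂ p : Pt) (w : ι) : ℝ :=
  gg p₁ p₂ p * (1 / (ε * (a w - s0 p₁ p₂)))

/-- the position of a cell on a window -/
theorem Sl.near (h : Sl s C0 K L lam δ Q W a b Y J w₀ ε p₁ p₂ P3 G0) {G : Finset Pt}
    (hG : G ⊆ G0) {p : Pt} (hp : p ∈ P3) {w : ι} (hw : w ∈ W) {q : Pt}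
    (hq : q ∈ Fl L a J w₀ G p w) :
    |(kap (L ^ 8 * δ) ε p₁ p₂ q).1 + al p₁ p₂ p * (kap (L ^ 8 * δ) ε p₁ p₂ q).2
      - zz a ε p₁ p₂ p w| ≤ 3 * L * (L ^ 8 * δ) := by
  classical
  obtain ⟨hqG, hJ, ha, hx⟩ := mem_filter.1 hq
  have hd := h.d0
  have hL1 := h.fr.pj.L1
  have hpw := (h.fr.pj.subJ w hw _ hJ).1
  have hqw := (h.fr.pj.subJ w hw _ hJ).2
  obtain ⟨_, h2⟩ := h.fr.cc_near (h.subP hp) hw hpw hqw ha (h.hlow (hG hqG))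
  obtain ⟨_, h4, h5, _⟩ := h.al_abs hp
  have h6 := cc_comb (ε := ε) (p₁ := p₁) (q := q) (h.ne2 hp)
  have h7 := rd_near (t := cc ε p₁ p₂ p₁ q) hd
  have h8 := rd_near (t := cc ε p₁ p₂ p₂ q) hd
  unfold kap zz
  simp only
  have e : rd (L ^ 8 * δ) (cc ε p₁ p₂ p₁ q) + al p₁ p₂ p * rd (L ^ 8 * δ) (cc ε p₁ p₂ p₂ q)
      - gg p₁ p₂ p * (1 / (ε * (a w - s0 p₁ p₂)))
      = gg p₁ p₂ p * (cc ε p₁ p₂ p q - 1 / (ε * (a w - s0 p₁ p₂)))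
        - (cc ε p₁ p₂ p₁ q - rd (L ^ 8 * δ) (cc ε p₁ p₂ p₁ q))
        - al p₁ p₂ p * (cc ε p₁ p₂ p₂ q - rd (L ^ 8 * δ) (cc ε p₁ p₂ p₂ q)) := by
    linear_combination h6
  rw [e]
  calc _ ≤ |gg p₁ p₂ p * (cc ε p₁ p₂ p q - 1 / (ε * (a w - s0 p₁ p₂)))
        - (cc ε p₁ p₂ p₁ q - rd (L ^ 8 * δ) (cc ε p₁ p₂ p₁ q))|
        + |al p₁ p₂ p * (cc ε p₁ p₂ p₂ q - rd (L ^ 8 * δ) (cc ε p₁ p₂ p₂ q))| := abs_sub _ _
    _ ≤ |gg p₁ p₂ p * (cc ε p₁ p₂ p q - 1 / (ε * (a w - s0 p₁ p₂)))|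
        + |cc ε p₁ p₂ p₁ q - rd (L ^ 8 * δ) (cc ε p₁ p₂ p₁ q)|
        + |al p₁ p₂ p * (cc ε p₁ p₂ p₂ q - rd (L ^ 8 * δ) (cc ε p₁ p₂ p₂ q))| := by
        gcongr
        exact abs_sub _ _
    _ ≤ L * (192 * L ^ 4 * δ) + L ^ 8 * δ + L * (L ^ 8 * δ) := by
        rw [abs_mul, abs_mul]
        gcongr
    _ ≤ L * (L ^ 8 * δ) + L * (L ^ 8 * δ) + L * (L ^ 8 * δ) := by
        have h10 : L * (192 * L ^ 4 * δ) ≤ L * (L ^ 8 * δ) :=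
          mul_le_mul_of_nonneg_left h.fr.d192 (by linarith)
        have h11 : 1 * (L ^ 8 * δ) ≤ L * (L ^ 8 * δ) := mul_le_mul_of_nonneg_right hL1 hd.le
        linarith
    _ = _ := by ring

/-- the position of a cell in the class of an apex `p` of the tube `w₀` (single coordinate) -/
theorem Sl.near1 (h : Sl s C0 K L lam δ Q W a b Y J w₀ ε p₁ p₂ P3 G0) {p q : Pt}
    (hp : p ∈ Y w₀) (hq : q ∈ G0) (hj : Jn L W a J w₀ p q) :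
    ∃ w ∈ W, p ∈ Y w ∧ |rd (L ^ 8 * δ) (cc ε p₁ p₂ p q) - 1 / (ε * (a w - s0 p₁ p₂))|
      ≤ 2 * (L ^ 8 * δ) := by
  obtain ⟨w, hw, hJ, ha, hx⟩ := hj
  have hpw := (h.fr.pj.subJ w hw _ hJ).1
  have hqw := (h.fr.pj.subJ w hw _ hJ).2
  obtain ⟨_, h2⟩ := h.fr.cc_near hp hw hpw hqw ha (h.hlow hq)
  refine ⟨w, hw, hpw, ?_⟩
  have h7 := rd_near (t := cc ε p₁ p₂ p q) h.d0
  have h8 := h.fr.d192
  calc _ ≤ |rd (L ^ 8 * δ) (cc ε p₁ p₂ p q) - cc ε p₁ p₂ p q|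
        + |cc ε p₁ p₂ p q - 1 / (ε * (a w - s0 p₁ p₂))| := abs_sub_le _ _ _
    _ ≤ L ^ 8 * δ + 192 * L ^ 4 * δ := by
        rw [abs_sub_comm] at h7
        gcongr
    _ ≤ _ := by linarith

open Classical in
/-- few positions in the pencil of an apex -/
theorem Sl.card_pos (h : Sl s C0 K L lam δ Q W a b Y J w₀ ε p₁ p₂ P3 G0) {p : Pt}
    (hp : p ∈ Y w₀) (S : Finset ℝ)
    (hS : ∀ x ∈ S, ∃ q ∈ G0, Jn L W a J w₀ p q ∧ x = rd (L ^ 8 * δ) (cc ε p₁ p₂ p q)) :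
    (#S : ℝ) ≤ 6 * K * lam := by
  have hd := h.d0
  have h1 := card_rd_windows hd (l := 2 * (L ^ 8 * δ)) (by positivity) S {w ∈ W | p ∈ Y w}
    (fun w => 1 / (ε * (a w - s0 p₁ p₂))) (fun x hx => ?_) (fun x hx => ?_)
  · have h2 := h.fr.pj.touch p (h.fr.pj.subY w₀ h.fr.hw₀ hp)
    have e : 2 * (2 * (L ^ 8 * δ)) / (L ^ 8 * δ) + 2 = 6 := by
      have : 2 * (2 * (L ^ 8 * δ)) / (L ^ 8 * δ) = 4 := by
        rw [div_eq_iff hd.ne']; ring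
      rw [this]; norm_num
    rw [e] at h1
    linarith
  · obtain ⟨q, _, _, rfl⟩ := hS x hx
    exact ⟨_, rfl⟩
  · obtain ⟨q, hq, hj, rfl⟩ := hS x hx
    obtain ⟨w, hw, hpw, h3⟩ := h.near1 hp hq hj
    exact ⟨w, mem_filter.2 ⟨hw, hpw⟩, h3⟩

open Classical in
/-- few cells on one window -/
theorem Sl.visited (h : Sl s C0 K L lam δ Q W a b Y J w₀ ε p₁ p₂ P3 G0) {G : Finset Pt}
    (hG : G ⊆ G0) {p : Pt} (hp : p ∈ P3) {w : ι} (hw : w ∈ W) :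
    (#((Fl L a J w₀ G p w).image (kap (L ^ 8 * δ) ε p₁ p₂)) : ℝ) ≤ L ^ 3 * lam := by
  have hd := h.d0
  have hL0 := h.fr.L0
  have hL1 := h.fr.pj.L1
  have hl0 : 0 < lam := by linarith [h.fr.pj.lam1]
  have hK1 := h.fr.pj.K1
  set M := (Fl L a J w₀ G p w).image (kap (L ^ 8 * δ) ε p₁ p₂) with hM
  have h1 : (#(M.image Prod.fst) : ℝ) ≤ 6 * K * lam := by
    refine h.card_pos h.fr.m1 _ fun x hx => ?_
    obtain ⟨k, hk, rfl⟩ := mem_image.1 hx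
    obtain ⟨q, hq, rfl⟩ := mem_image.1 hk
    have hqG := hG (mem_filter.1 hq).1
    exact ⟨q, hqG, (h.jn q hqG).1, rfl⟩
  have h2 : ∀ x ∈ M.image Prod.fst, (#{k ∈ M | k.1 = x} : ℝ) ≤ 6 * L ^ 2 + 2 := by
    intro x _
    have h3 : #{k ∈ M | k.1 = x} = #(({k ∈ M | k.1 = x}).image Prod.snd) := by
      rw [card_image_of_injOn]
      intro k hk k' hk' he
      have h4 := (mem_filter.1 (mem_coe.1 hk)).2
      have h5 := (mem_filter.1 (mem_coe.1 hk')).2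
      exact Prod.ext (h4.trans h5.symm) he
    rw [h3]
    obtain ⟨h6, _, _, _⟩ := h.al_abs hp
    have hal : 0 < |al p₁ p₂ p| := by
      have : 0 < 1 / L := by positivity
      linarith
    have hal0 : al p₁ p₂ p ≠ 0 := abs_pos.1 hal
    have h7 := card_rd (x := (zz a ε p₁ p₂ p w - x) / al p₁ p₂ p) (l := 3 * L ^ 2 * (L ^ 8 * δ)) hd
      (by positivity) (({k ∈ M | k.1 = x}).image Prod.snd) (fun y hy => ?_) (fun y hy => ?_)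
    · refine h7.trans (le_of_eq ?_)
      have e : 2 * (3 * L ^ 2 * (L ^ 8 * δ)) / (L ^ 8 * δ) = 6 * L ^ 2 := by
        rw [div_eq_iff hd.ne']; ring
      rw [e]
    · obtain ⟨k, hk, rfl⟩ := mem_image.1 hy
      obtain ⟨q, hq, rfl⟩ := mem_image.1 (mem_filter.1 hk).1
      exact ⟨_, rfl⟩
    · obtain ⟨k, hk, rfl⟩ := mem_image.1 hy
      obtain ⟨hkM, hkx⟩ := mem_filter.1 hk
      obtain ⟨q, hq, rfl⟩ := mem_image.1 hkM
      have h8 := h.near hG hp hw hq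
      rw [hkx] at h8
      have e : (kap (L ^ 8 * δ) ε p₁ p₂ q).2 - (zz a ε p₁ p₂ p w - x) / al p₁ p₂ p
          = (x + al p₁ p₂ p * (kap (L ^ 8 * δ) ε p₁ p₂ q).2 - zz a ε p₁ p₂ p w)
            / al p₁ p₂ p := by
        field_simp; ring
      rw [e, abs_div, div_le_iff₀ hal]
      calc _ ≤ 3 * L * (L ^ 8 * δ) := h8
        _ = 3 * L ^ 2 * (L ^ 8 * δ) * (1 / L) := by field_simp
        _ ≤ _ := by gcongr
  have h4 : (#M : ℝ) = ∑ x ∈ M.image Prod.fst, (#{k ∈ M | k.1 = x} : ℝ) := by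
    exact_mod_cast card_eq_sum_card_fiberwise (f := Prod.fst) (s := M) (t := M.image Prod.fst)
      (fun k hk => mem_coe.2 (mem_image_of_mem _ hk))
  have h48 : 48 * K ≤ L := by
    have h6 := h.fr.pj.powK (s := 9) (by have := h.fr.C40; omega)
    have h7 : (2 : ℝ) ^ 6 ≤ K ^ 6 := h.fr.pj.two_pow 6
    have h8 : K ≤ K ^ 3 := by
      calc K = K ^ 1 := (pow_one K).symm
        _ ≤ K ^ 3 := pow_le_pow_right₀ hK1 (by norm_num)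
    calc 48 * K ≤ 2 ^ 6 * K := by linarith
      _ ≤ K ^ 6 * K ^ 3 := by gcongr
      _ = K ^ 9 := by ring
      _ ≤ L := h6
  calc (#M : ℝ) = ∑ x ∈ M.image Prod.fst, (#{k ∈ M | k.1 = x} : ℝ) := h4
    _ ≤ ∑ x ∈ M.image Prod.fst, (6 * L ^ 2 + 2) := sum_le_sum h2
    _ = #(M.image Prod.fst) * (6 * L ^ 2 + 2) := by rw [sum_const, nsmul_eq_mul]
    _ ≤ 6 * K * lam * (8 * L ^ 2) := by
        have : 1 ≤ L ^ 2 := one_le_pow₀ hL1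
        gcongr
        linarith
    _ = (48 * K) * (L ^ 2 * lam) := by ring
    _ ≤ L * (L ^ 2 * lam) := by gcongr
    _ = _ := by ring

open Classical in
/-- the full flags -/
noncomputable def Ff (L lam δ ε : ℝ) (p₁ p₂ : Pt) (N : ℝ) (a : ι → ℝ) (J : ι → Finset (Pt × Pt))
    (w₀ : ι) (G : Finset Pt) (p : Pt) (w : ι) : Finset Pt :=
  {q ∈ Fl L a J w₀ G p w | N ≤ L ^ 5 * lam ^ 2 *
    #{q' ∈ Fl L a J w₀ G p w | kap (L ^ 8 * δ) ε p₁ p₂ q' = kap (L ^ 8 * δ) ε p₁ p₂ q}}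

open Classical in
/-- few flags are not full -/
theorem Sl.notfull (h : Sl s C0 K L lam δ Q W a b Y J w₀ ε p₁ p₂ P3 G0) {G : Finset Pt}
    (hG : G ⊆ G0) {p : Pt} (hp : p ∈ P3) {w : ι} (hw : w ∈ W) :
    L ^ 2 * lam * (#(Fl L a J w₀ G p w \ Ff L lam δ ε p₁ p₂ #Q a J w₀ G p w) : ℝ) ≤ #Q := by
  have hL0 := h.fr.L0
  have hl0 : 0 < lam := by linarith [h.fr.pj.lam1]
  set F := Fl L a J w₀ G p w with hF
  set D := F \ Ff L lam δ ε p₁ p₂ #Q a J w₀ G p w with hD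
  set kp := kap (L ^ 8 * δ) ε p₁ p₂ with hkp
  have h1 : (#D : ℝ) = ∑ k ∈ F.image kp, (#{q ∈ D | kp q = k} : ℝ) := by
    exact_mod_cast card_eq_sum_card_fiberwise (f := kp) (s := D) (t := F.image kp)
      (fun q hq => mem_coe.2 (mem_image_of_mem _ (mem_sdiff.1 (mem_coe.1 hq)).1))
  have h2 : ∀ k ∈ F.image kp, L ^ 5 * lam ^ 2 * (#{q ∈ D | kp q = k} : ℝ) ≤ #Q := by
    intro k _
    rcases (({q ∈ D | kp q = k} : Finset Pt)).eq_empty_or_nonempty with h3 | ⟨q, hq⟩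
    · rw [h3, card_empty]; push_cast; simp
    · obtain ⟨hqD, hqk⟩ := mem_filter.1 hq
      obtain ⟨hqF, hqn⟩ := mem_sdiff.1 hqD
      have h4 : ¬ (#Q : ℝ) ≤ L ^ 5 * lam ^ 2 * #{q' ∈ F | kp q' = kp q} := by
        intro h5
        exact hqn (mem_filter.2 ⟨hqF, h5⟩)
      push Not at h4
      have h5 : #{q ∈ D | kp q = k} ≤ #{q' ∈ F | kp q' = kp q} := by
        refine card_le_card fun x hx => ?_
        obtain ⟨hx1, hx2⟩ := mem_filter.1 hx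
        exact mem_filter.2 ⟨(mem_sdiff.1 hx1).1, hx2.trans hqk.symm⟩
      calc L ^ 5 * lam ^ 2 * (#{q ∈ D | kp q = k} : ℝ)
          ≤ L ^ 5 * lam ^ 2 * (#{q' ∈ F | kp q' = kp q} : ℝ) := by
            have : (#{q ∈ D | kp q = k} : ℝ) ≤ (#{q' ∈ F | kp q' = kp q} : ℝ) := by
              exact_mod_cast h5
            gcongr
        _ ≤ (#Q : ℝ) := h4.le
  have h3 := h.visited hG hp hw
  have h4 : L ^ 5 * lam ^ 2 * (#D : ℝ) ≤ L ^ 3 * lam * #Q := by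
    rw [h1, mul_sum]
    calc ∑ k ∈ F.image kp, L ^ 5 * lam ^ 2 * (#{q ∈ D | kp q = k} : ℝ)
        ≤ ∑ k ∈ F.image kp, (#Q : ℝ) := sum_le_sum h2
      _ = #(F.image kp) * (#Q : ℝ) := by rw [sum_const, nsmul_eq_mul]
      _ ≤ _ := by gcongr
  have h5 : (L ^ 2 * lam * (#D : ℝ)) * (L ^ 3 * lam) ≤ #Q * (L ^ 3 * lam) := by
    calc _ = L ^ 5 * lam ^ 2 * (#D : ℝ) := by ring
      _ ≤ L ^ 3 * lam * #Q := h4
      _ = _ := by ring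
  exact le_of_mul_le_mul_right h5 (by positivity)

end sl

end Vale.Agent.P065.UB.H759
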