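import Vale.Agent.P065.UB.H759.Cls

/-!
# P065, upper bound, line P: cardinalities of the classes (helper759)
-/

set_option autoImplicit false

namespace Vale.Agent.P065.UB.H759

open Finset Vale.Agent.P065.UB
open Vale.Agent.P118.OF (Sep)
open Vale.Agent.P065.H626 (Box)

section sl

variable {s C0 : ℕ} {K L lam δ : ℝ} {Q : Finset Pt} {ι : Type} {W : Finset ι} {a b : ι → ℝ}
  {Y : ι → Finset Pt} {J : ι → Finset (Pt × Pt)} {w₀ : ι} {ε : ℝ} {p₁ p₂ : Pt}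
  {P3 G0 : Finset Pt}

theorem PJ.mulK (h : PJ C0 K L lam δ Q W a b Y J) {s t : ℕ} (hs : s + t ≤ C0) :
    2 ^ t * K ^ s ≤ L := by
  calc 2 ^ t * K ^ s ≤ K ^ t * K ^ s := by
        have := h.two_pow t
        have := h.K1
        gcongr
    _ = K ^ (s + t) := by rw [← pow_add, add_comm]
    _ ≤ L := h.powK hs

open Classical in
/-- the pruned points -/
noncomputable def Gp (L lam δ ε : ℝ) (p₁ p₂ : Pt) (N : ℝ) (G0 : Finset Pt) : Finset Pt :=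
  {q ∈ G0 | N ≤ L * lam *
    #{q' ∈ G0 | rd (L ^ 8 * δ) (cc ε p₁ p₂ p₂ q') = rd (L ^ 8 * δ) (cc ε p₁ p₂ p₂ q)}}

theorem Gp_sub {L lam δ ε : ℝ} {p₁ p₂ : Pt} {N : ℝ} {G0 : Finset Pt} :
    Gp L lam δ ε p₁ p₂ N G0 ⊆ G0 := filter_subset _ _

open Classical in
theorem Sl.prune (h : Sl s C0 K L lam δ Q W a b Y J w₀ ε p₁ p₂ P3 G0) :
    L * (#(G0 \ Gp L lam δ ε p₁ p₂ #Q G0) : ℝ) ≤ 6 * K * #Q := by
  have hL0 := h.fr.L0
  have hl0 : 0 < lam := by linarith [h.fr.pj.lam1]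
  set D := G0 \ Gp L lam δ ε p₁ p₂ #Q G0 with hD
  set f : Pt → ℝ := fun q => rd (L ^ 8 * δ) (cc ε p₁ p₂ p₂ q) with hf
  have h1 : (#D : ℝ) = ∑ k ∈ G0.image f, (#{q ∈ D | f q = k} : ℝ) := by
    exact_mod_cast card_eq_sum_card_fiberwise (f := f) (s := D) (t := G0.image f)
      (fun q hq => mem_coe.2 (mem_image_of_mem _ (mem_sdiff.1 (mem_coe.1 hq)).1))
  have h2 : ∀ k ∈ G0.image f, L * lam * (#{q ∈ D | f q = k} : ℝ) ≤ #Q := by
    intro k _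
    rcases (({q ∈ D | f q = k} : Finset Pt)).eq_empty_or_nonempty with h3 | ⟨q, hq⟩
    · rw [h3, card_empty]; push_cast; simp
    · obtain ⟨hqD, hqk⟩ := mem_filter.1 hq
      obtain ⟨hqF, hqn⟩ := mem_sdiff.1 hqD
      have h4 : ¬ (#Q : ℝ) ≤ L * lam * #{q' ∈ G0 | f q' = f q} := by
        intro h5
        exact hqn (mem_filter.2 ⟨hqF, h5⟩)
      push Not at h4
      have h5 : (#{q ∈ D | f q = k} : ℝ) ≤ (#{q' ∈ G0 | f q' = f q} : ℝ) := by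
        have : #{q ∈ D | f q = k} ≤ #{q' ∈ G0 | f q' = f q} := by
          refine card_le_card fun x hx => ?_
          obtain ⟨hx1, hx2⟩ := mem_filter.1 hx
          exact mem_filter.2 ⟨(mem_sdiff.1 hx1).1, hx2.trans hqk.symm⟩
        exact_mod_cast this
      calc L * lam * (#{q ∈ D | f q = k} : ℝ)
          ≤ L * lam * (#{q' ∈ G0 | f q' = f q} : ℝ) := by gcongr
        _ ≤ (#Q : ℝ) := h4.le
  have h3 : (#(G0.image f) : ℝ) ≤ 6 * K * lam := by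
    refine h.card_pos h.fr.m2 _ fun x hx => ?_
    obtain ⟨q, hq, rfl⟩ := mem_image.1 hx
    exact ⟨q, hq, (h.jn q hq).2.1, rfl⟩
  have h4 : L * lam * (#D : ℝ) ≤ 6 * K * lam * #Q := by
    rw [h1, mul_sum]
    calc ∑ k ∈ G0.image f, L * lam * (#{q ∈ D | f q = k} : ℝ)
        ≤ ∑ k ∈ G0.image f, (#Q : ℝ) := sum_le_sum h2
      _ = #(G0.image f) * (#Q : ℝ) := by rw [sum_const, nsmul_eq_mul]
      _ ≤ _ := by gcongr
  have h5 : (L * (#D : ℝ)) * lam ≤ (6 * K * #Q) * lam := by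
    calc _ = L * lam * (#D : ℝ) := by ring
      _ ≤ 6 * K * lam * #Q := h4
      _ = _ := by ring
  exact le_of_mul_le_mul_right h5 hl0

open Classical in
/-- many full flags -/
theorem Sl.many (h : Sl s C0 K L lam δ Q W a b Y J w₀ ε p₁ p₂ P3 G0) (hC : s + 8 ≤ C0)
    {p : Pt} (hp : p ∈ P3) :
    (#Q : ℝ) ≤ 4 * K ^ s * #(W.biUnion (fun w =>
      Ff L lam δ ε p₁ p₂ #Q a J w₀ (Gp L lam δ ε p₁ p₂ #Q G0) p w)) := by
  have hL0 := h.fr.L0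
  have hL1 := h.fr.pj.L1
  have hK1 := h.fr.pj.K1
  have hl1 := h.fr.pj.lam1
  have hl0 : 0 < lam := by linarith
  have hN := h.fr.pj.N0
  set G := Gp L lam δ ε p₁ p₂ #Q G0 with hG
  set U := W.biUnion (fun w => Ff L lam δ ε p₁ p₂ #Q a J w₀ G p w) with hU
  set V : Finset ι := {w ∈ W | p ∈ Y w} with hV
  have h1 := h.cG p hp
  have h2 := h.prune
  rw [← hG] at h2
  have h3 : ({q ∈ G0 | Jn L W a J w₀ p q} : Finset Pt) ⊆
      (U ∪ V.biUnion (fun w => Fl L a J w₀ G p w \ Ff L lam δ ε p₁ p₂ #Q a J w₀ G p w))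
        ∪ (G0 \ G) := by
    intro q hq
    obtain ⟨hq0, w, hw, hJ, ha, hx⟩ := mem_filter.1 hq
    rw [mem_union, mem_union]
    by_cases hqG : q ∈ G
    · left
      have hF : q ∈ Fl L a J w₀ G p w := mem_filter.2 ⟨hqG, hJ, ha, hx⟩
      by_cases hf : q ∈ Ff L lam δ ε p₁ p₂ #Q a J w₀ G p w
      · exact Or.inl (mem_biUnion.2 ⟨w, hw, hf⟩)
      · exact Or.inr (mem_biUnion.2 ⟨w, mem_filter.2 ⟨hw, (h.fr.pj.subJ w hw _ hJ).1⟩,
          mem_sdiff.2 ⟨hF, hf⟩⟩)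
    · exact Or.inr (mem_sdiff.2 ⟨hq0, hqG⟩)
  have h4 : (#{q ∈ G0 | Jn L W a J w₀ p q} : ℝ) ≤ #U
      + ∑ w ∈ V, (#(Fl L a J w₀ G p w \ Ff L lam δ ε p₁ p₂ #Q a J w₀ G p w) : ℝ)
      + #(G0 \ G) := by
    have h5 := card_le_card h3
    have h6 := card_union_le
      (U ∪ V.biUnion (fun w => Fl L a J w₀ G p w \ Ff L lam δ ε p₁ p₂ #Q a J w₀ G p w)) (G0 \ G)
    have h7 := card_union_le U
      (V.biUnion (fun w => Fl L a J w₀ G p w \ Ff L lam δ ε p₁ p₂ #Q a J w₀ G p w))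
    have h8 : #(V.biUnion (fun w => Fl L a J w₀ G p w \ Ff L lam δ ε p₁ p₂ #Q a J w₀ G p w))
        ≤ ∑ w ∈ V, #(Fl L a J w₀ G p w \ Ff L lam δ ε p₁ p₂ #Q a J w₀ G p w) := card_biUnion_le
    have h9 : #{q ∈ G0 | Jn L W a J w₀ p q} ≤ #U
      + ∑ w ∈ V, #(Fl L a J w₀ G p w \ Ff L lam δ ε p₁ p₂ #Q a J w₀ G p w)
      + #(G0 \ G) := by omega
    exact_mod_cast h9
  have h5 : L ^ 2 * lam * ∑ w ∈ V, (#(Fl L a J w₀ G p w \ Ff L lam δ ε p₁ p₂ #Q a J w₀ G p w) : ℝ)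
      ≤ K * lam * #Q := by
    rw [mul_sum]
    calc _ ≤ ∑ w ∈ V, (#Q : ℝ) := sum_le_sum fun w hw =>
          h.notfull Gp_sub hp (mem_filter.1 hw).1
      _ = #V * (#Q : ℝ) := by rw [sum_const, nsmul_eq_mul]
      _ ≤ _ := by
          have := h.fr.pj.touch p (h.fr.pj.subY w₀ h.fr.hw₀ (h.subP hp))
          gcongr
  set Z := ∑ w ∈ V, (#(Fl L a J w₀ G p w \ Ff L lam δ ε p₁ p₂ #Q a J w₀ G p w) : ℝ) with hZ
  have h6 : L ^ 2 * Z ≤ K * #Q := by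
    have : (L ^ 2 * Z) * lam ≤ (K * #Q) * lam := by
      calc _ = L ^ 2 * lam * Z := by ring
        _ ≤ K * lam * #Q := h5
        _ = _ := by ring
    exact le_of_mul_le_mul_right this hl0
  -- combine
  have hZ0 : 0 ≤ Z := sum_nonneg fun _ _ => Nat.cast_nonneg _
  have hKs0 : 0 < K ^ s := by positivity
  have h7 : 16 * K ^ (s + 1) ≤ L := by
    have := h.fr.pj.mulK (s := s + 1) (t := 4) (by omega)
    norm_num at this
    linarith
  have h8 : 4 * K ^ s * Z ≤ #Q / 4 * 1 := by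
    have h9 : L * Z ≤ L ^ 2 * Z := by
      have : L * 1 ≤ L * L := by gcongr
      nlinarith
    have h10 : 16 * K ^ (s + 1) * Z ≤ K * #Q :=
      (mul_le_mul_of_nonneg_right h7 hZ0).trans (h9.trans h6)
    have h11 : (16 * K ^ s * Z) * K ≤ #Q * K := by
      calc _ = 16 * K ^ (s + 1) * Z := by rw [pow_succ]; ring
        _ ≤ _ := h10
        _ = _ := by ring
    have h12 := le_of_mul_le_mul_right h11 (by linarith : 0 < K)
    linarith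
  have h9 : 4 * K ^ s * (#(G0 \ G) : ℝ) ≤ #Q * 2 := by
    have h10 : 16 * K ^ (s + 1) * (#(G0 \ G) : ℝ) ≤ 6 * K * #Q :=
      (mul_le_mul_of_nonneg_right h7 (Nat.cast_nonneg _)).trans h2
    have h11 : (16 * K ^ s * (#(G0 \ G) : ℝ)) * K ≤ (6 * #Q) * K := by
      calc _ = 16 * K ^ (s + 1) * (#(G0 \ G) : ℝ) := by rw [pow_succ]; ring
        _ ≤ _ := h10
        _ = _ := by ring
    have h12 := le_of_mul_le_mul_right h11 (by linarith : 0 < K)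
    linarith
  have h10 : 4 * (#Q : ℝ) ≤ 4 * K ^ s * #U + 4 * K ^ s * Z + 4 * K ^ s * #(G0 \ G) := by
    calc 4 * (#Q : ℝ) ≤ 4 * (K ^ s * #{q ∈ G0 | Jn L W a J w₀ p q}) := by linarith
      _ ≤ 4 * (K ^ s * (#U + Z + #(G0 \ G))) := by gcongr
      _ = _ := by ring
  linarith

open Classical in
/-- the cells of the class of `p` -/
noncomputable def Ya (L lam δ ε : ℝ) (p₁ p₂ : Pt) (N : ℝ) (W : Finset ι) (a : ι → ℝ)
    (J : ι → Finset (Pt × Pt)) (w₀ : ι) (G : Finset Pt) (p : Pt) : Finset (ℝ × ℝ) :=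
  (W.biUnion (fun w => Ff L lam δ ε p₁ p₂ N a J w₀ G p w)).image (kap (L ^ 8 * δ) ε p₁ p₂)

/-- many cells -/
theorem Sl.full (h : Sl s C0 K L lam δ Q W a b Y J w₀ ε p₁ p₂ P3 G0) (hC : s + 8 ≤ C0) {e : ℕ}
    (hfib : ∀ k : ℝ × ℝ, open Classical in
      lam ^ 2 * (#{q ∈ G0 | kap (L ^ 8 * δ) ε p₁ p₂ q = k} : ℝ) ≤ L ^ e * #Q)
    {p : Pt} (hp : p ∈ P3) :
    lam ^ 2 ≤ L ^ (e + 1) *
      #(Ya L lam δ ε p₁ p₂ #Q W a J w₀ (Gp L lam δ ε p₁ p₂ #Q G0) p) := by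
  classical
  have hL0 := h.fr.L0
  have hK1 := h.fr.pj.K1
  have hl0 : 0 < lam := by linarith [h.fr.pj.lam1]
  have hN := h.fr.pj.N0
  have h1 := h.many hC hp
  set G := Gp L lam δ ε p₁ p₂ #Q G0 with hG
  set U := W.biUnion (fun w => Ff L lam δ ε p₁ p₂ #Q a J w₀ G p w) with hU
  have h2 : (#U : ℝ) = ∑ k ∈ Ya L lam δ ε p₁ p₂ #Q W a J w₀ G p,
      (#{q ∈ U | kap (L ^ 8 * δ) ε p₁ p₂ q = k} : ℝ) := by
    exact_mod_cast card_eq_sum_card_fiberwise (f := kap (L ^ 8 * δ) ε p₁ p₂) (s := U)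
      (t := Ya L lam δ ε p₁ p₂ #Q W a J w₀ G p)
      (fun q hq => mem_coe.2 (mem_image_of_mem _ (mem_coe.1 hq)))
  have hUG : U ⊆ G0 := by
    intro q hq
    obtain ⟨w, _, hq⟩ := mem_biUnion.1 hq
    exact Gp_sub (mem_filter.1 (mem_filter.1 hq).1).1
  have h3 : lam ^ 2 * (#U : ℝ) ≤ #(Ya L lam δ ε p₁ p₂ #Q W a J w₀ G p) * (L ^ e * #Q) := by
    rw [h2, mul_sum]
    calc _ ≤ ∑ k ∈ Ya L lam δ ε p₁ p₂ #Q W a J w₀ G p, (L ^ e * (#Q : ℝ)) := by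
          refine sum_le_sum fun k _ => le_trans ?_ (hfib k)
          have : (#{q ∈ U | kap (L ^ 8 * δ) ε p₁ p₂ q = k} : ℝ)
              ≤ #{q ∈ G0 | kap (L ^ 8 * δ) ε p₁ p₂ q = k} := by
            exact_mod_cast card_le_card (filter_subset_filter _ hUG)
          gcongr
      _ = _ := by rw [sum_const, nsmul_eq_mul]
  have h4 : 4 * K ^ s ≤ L := by
    have := h.fr.pj.mulK (s := s) (t := 2) (by omega)
    norm_num at this
    linarith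
  have h5 : lam ^ 2 * (#Q : ℝ) ≤ (L ^ (e + 1) * #(Ya L lam δ ε p₁ p₂ #Q W a J w₀ G p)) * #Q := by
    calc lam ^ 2 * (#Q : ℝ) ≤ lam ^ 2 * (4 * K ^ s * #U) := by gcongr
      _ = 4 * K ^ s * (lam ^ 2 * #U) := by ring
      _ ≤ L * (#(Ya L lam δ ε p₁ p₂ #Q W a J w₀ G p) * (L ^ e * #Q)) := by gcongr
      _ = _ := by rw [pow_succ]; ring
  exact le_of_mul_le_mul_right h5 hN

/-- the strip of a cell -/
noncomputable def st (L δ : ℝ) (p₁ p₂ p : Pt) (k : ℝ × ℝ) : ℝ :=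
  rd (L ^ 8 * δ) (k.1 + al p₁ p₂ p * k.2)

/-- the position of the strip of a flag -/
theorem Sl.st_near (h : Sl s C0 K L lam δ Q W a b Y J w₀ ε p₁ p₂ P3 G0) {G : Finset Pt}
    (hG : G ⊆ G0) {p : Pt} (hp : p ∈ P3) {w : ι} (hw : w ∈ W) {q : Pt}
    (hq : q ∈ Fl L a J w₀ G p w) :
    |st L δ p₁ p₂ p (kap (L ^ 8 * δ) ε p₁ p₂ q) - zz a ε p₁ p₂ p w| ≤ 4 * L * (L ^ 8 * δ) := by
  have h1 := h.near hG hp hw hq
  have h2 := rd_near (t := (kap (L ^ 8 * δ) ε p₁ p₂ q).1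
    + al p₁ p₂ p * (kap (L ^ 8 * δ) ε p₁ p₂ q).2) h.d0
  have hL1 := h.fr.pj.L1
  have hd := h.d0
  unfold st
  have h3 : 1 * (L ^ 8 * δ) ≤ L * (L ^ 8 * δ) := mul_le_mul_of_nonneg_right hL1 hd.le
  calc _ ≤ |rd (L ^ 8 * δ) ((kap (L ^ 8 * δ) ε p₁ p₂ q).1
        + al p₁ p₂ p * (kap (L ^ 8 * δ) ε p₁ p₂ q).2) - ((kap (L ^ 8 * δ) ε p₁ p₂ q).1
        + al p₁ p₂ p * (kap (L ^ 8 * δ) ε p₁ p₂ q).2)| + |((kap (L ^ 8 * δ) ε p₁ p₂ q).1
        + al p₁ p₂ p * (kap (L ^ 8 * δ) ε p₁ p₂ q).2) - zz a ε p₁ p₂ p w| := abs_sub_le _ _ _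
    _ ≤ L ^ 8 * δ + 3 * L * (L ^ 8 * δ) := by
        rw [abs_sub_comm] at h2
        gcongr
    _ ≤ _ := by linarith

open Classical in
/-- few strips in a class -/
theorem Sl.cardS (h : Sl s C0 K L lam δ Q W a b Y J w₀ ε p₁ p₂ P3 G0) {G : Finset Pt}
    (hG : G ⊆ G0) {p : Pt} (hp : p ∈ P3) :
    (#((Ya L lam δ ε p₁ p₂ #Q W a J w₀ G p).image (st L δ p₁ p₂ p)) : ℝ) ≤ L ^ 2 * lam := by
  have hd := h.d0
  have hL1 := h.fr.pj.L1
  have hL0 := h.fr.L0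
  have hl0 : 0 < lam := by linarith [h.fr.pj.lam1]
  have hK1 := h.fr.pj.K1
  have h1 := card_rd_windows hd (l := 4 * L * (L ^ 8 * δ)) (by positivity)
    ((Ya L lam δ ε p₁ p₂ #Q W a J w₀ G p).image (st L δ p₁ p₂ p)) {w ∈ W | p ∈ Y w}
    (zz a ε p₁ p₂ p) (fun x hx => ?_) (fun x hx => ?_)
  · have h2 := h.fr.pj.touch p (h.fr.pj.subY w₀ h.fr.hw₀ (h.subP hp))
    have e : 2 * (4 * L * (L ^ 8 * δ)) / (L ^ 8 * δ) = 8 * L := by
      rw [div_eq_iff hd.ne']; ring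
    rw [e] at h1
    have h3 : 16 * K ≤ L := by
      have := h.fr.pj.mulK (s := 1) (t := 4) (by have := h.fr.C40; omega)
      norm_num at this
      linarith
    calc _ ≤ _ := h1
      _ ≤ K * lam * (8 * L + 2) := by gcongr
      _ ≤ K * lam * (16 * L) := by gcongr; linarith
      _ = 16 * K * (L * lam) := by ring
      _ ≤ L * (L * lam) := by gcongr
      _ = _ := by ring
  · obtain ⟨k, _, rfl⟩ := mem_image.1 hx
    exact ⟨_, rfl⟩
  · obtain ⟨k, hk, rfl⟩ := mem_image.1 hx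
    obtain ⟨q, hq, rfl⟩ := mem_image.1 hk
    obtain ⟨w, hw, hq⟩ := mem_biUnion.1 hq
    have hF := (mem_filter.1 hq).1
    have hJ := (mem_filter.1 hF).2.1
    exact ⟨w, mem_filter.2 ⟨hw, (h.fr.pj.subJ w hw _ hJ).1⟩, h.st_near hG hp hw hF⟩

/-- a separated family of apexes -/
theorem Sl.exists_apex (h : Sl s C0 K L lam δ Q W a b Y J w₀ ε p₁ p₂ P3 G0) (hC : s + 8 ≤ C0)
    {e : ℕ} (hFP : ∀ q ∈ Gd K L lam δ Q W Y, open Classical in
      lam ^ 2 * (#{p ∈ Gd K L lam δ Q W Y | sqc δ p = sqc δ q} : ℝ) ≤ L ^ e * #Q) :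
    ∃ P' ⊆ P3, Set.InjOn (fun p : Pt => ⌊p.1 / δ⌋) P' ∧ lam ≤ L ^ (e + 1) * #P' := by
  classical
  have hL0 := h.fr.L0
  have hL1 := h.fr.pj.L1
  have hK1 := h.fr.pj.K1
  have hl0 : 0 < lam := by linarith [h.fr.pj.lam1]
  have hN := h.fr.pj.N0
  have hδ := h.fr.pj.dpos
  obtain ⟨P', hP', hinj, him⟩ := exists_transversal P3 (fun p : Pt => ⌊p.1 / δ⌋)
  refine ⟨P', hP', hinj, ?_⟩
  set G := Gd K L lam δ Q W Y with hG
  have h1 : (#P3 : ℝ) = ∑ k ∈ P3.image (fun p : Pt => ⌊p.1 / δ⌋),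
      (#{p ∈ P3 | ⌊p.1 / δ⌋ = k} : ℝ) := by
    exact_mod_cast card_eq_sum_card_fiberwise (f := fun p : Pt => ⌊p.1 / δ⌋) (s := P3)
      (t := P3.image (fun p : Pt => ⌊p.1 / δ⌋))
      (fun q hq => mem_coe.2 (mem_image_of_mem _ (mem_coe.1 hq)))
  have h2 : ∀ k ∈ P3.image (fun p : Pt => ⌊p.1 / δ⌋),
      lam ^ 2 * (#{p ∈ P3 | ⌊p.1 / δ⌋ = k} : ℝ) ≤ 14 * (L ^ e * #Q) := by
    intro k _
    set T : Finset Pt := {p ∈ P3 | ⌊p.1 / δ⌋ = k} with hT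
    have h3 : (#T : ℝ) = ∑ j ∈ T.image (fun p : Pt => ⌊p.2 / δ⌋),
        (#{p ∈ T | ⌊p.2 / δ⌋ = j} : ℝ) := by
      exact_mod_cast card_eq_sum_card_fiberwise (f := fun p : Pt => ⌊p.2 / δ⌋) (s := T)
        (t := T.image (fun p : Pt => ⌊p.2 / δ⌋))
        (fun q hq => mem_coe.2 (mem_image_of_mem _ (mem_coe.1 hq)))
    have h4 : ∀ j ∈ T.image (fun p : Pt => ⌊p.2 / δ⌋),
        lam ^ 2 * (#{p ∈ T | ⌊p.2 / δ⌋ = j} : ℝ) ≤ L ^ e * #Q := by
      intro j hj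
      obtain ⟨q, hq, hqj⟩ := mem_image.1 hj
      obtain ⟨hq3, hqk⟩ := mem_filter.1 hq
      refine le_trans ?_ (hFP q (h.gdP hq3))
      have : #{p ∈ T | ⌊p.2 / δ⌋ = j} ≤ #{p ∈ G | sqc δ p = sqc δ q} := by
        refine card_le_card fun x hx => ?_
        obtain ⟨hxT, hxj⟩ := mem_filter.1 hx
        obtain ⟨hx3, hxk⟩ := mem_filter.1 hxT
        refine mem_filter.2 ⟨h.gdP hx3, ?_⟩
        unfold sqc
        exact Prod.ext (hxk.trans hqk.symm) (hxj.trans hqj.symm)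
      have h5 : (#{p ∈ T | ⌊p.2 / δ⌋ = j} : ℝ) ≤ (#{p ∈ G | sqc δ p = sqc δ q} : ℝ) := by
        exact_mod_cast this
      gcongr
    have h5 : (#(T.image (fun p : Pt => ⌊p.2 / δ⌋)) : ℝ) ≤ 14 := by
      have h6 := card_sep_le (T.image (fun p : Pt => ⌊p.2 / δ⌋)) (fun j : ℤ => (j : ℝ) * δ)
        (x := a w₀ * (k * δ) + b w₀) (l := 6 * δ) hδ (by positivity)
        (fun j _ j' _ hne => ?_) (fun j hj => ?_)
      · refine h6.trans (le_of_eq ?_)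
        field_simp
        norm_num
      · rw [← sub_mul, abs_mul, abs_of_pos hδ]
        have : (1 : ℝ) ≤ |(j : ℝ) - j'| := by
          have : (1 : ℤ) ≤ |j - j'| := Int.one_le_abs (sub_ne_zero.2 hne)
          exact_mod_cast this
        nlinarith
      · obtain ⟨q, hq, rfl⟩ := mem_image.1 hj
        obtain ⟨hq3, hqk⟩ := mem_filter.1 hq
        have h7 := h.fr.pj.tube w₀ h.fr.hw₀ q (h.subP hq3)
        have h8 : |q.1 - k * δ| ≤ δ := by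
          have := rd_near (d := δ) (t := q.1) hδ
          unfold rd at this
          rw [hqk, mul_comm] at this
          exact this
        have h9 : |q.2 - (⌊q.2 / δ⌋ : ℝ) * δ| ≤ δ := by
          have := rd_near (d := δ) (t := q.2) hδ
          unfold rd at this
          rw [mul_comm] at this
          exact this
        have h10 := h.fr.pj.slope w₀ h.fr.hw₀
        have h11 : |a w₀ * (q.1 - k * δ)| ≤ δ := by
          rw [abs_mul, abs_of_nonneg h10.1]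
          calc a w₀ * |q.1 - k * δ| ≤ 1 * δ := by
                have := h10.2
                gcongr
            _ = δ := one_mul _
        have e : (⌊q.2 / δ⌋ : ℝ) * δ - (a w₀ * (k * δ) + b w₀)
            = (q.2 - a w₀ * q.1 - b w₀) + a w₀ * (q.1 - k * δ)
              - (q.2 - (⌊q.2 / δ⌋ : ℝ) * δ) := by ring

        rw [e]
        calc _ ≤ |(q.2 - a w₀ * q.1 - b w₀) + a w₀ * (q.1 - k * δ)|
              + |q.2 - (⌊q.2 / δ⌋ : ℝ) * δ| := abs_sub _ _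
          _ ≤ |q.2 - a w₀ * q.1 - b w₀| + |a w₀ * (q.1 - k * δ)|
              + |q.2 - (⌊q.2 / δ⌋ : ℝ) * δ| := by
              gcongr
              exact abs_add_le _ _
          _ ≤ 4 * δ + δ + δ := by gcongr
          _ = _ := by ring
    rw [h3, mul_sum]
    calc _ ≤ ∑ j ∈ T.image (fun p : Pt => ⌊p.2 / δ⌋), (L ^ e * (#Q : ℝ)) := sum_le_sum h4
      _ = #(T.image (fun p : Pt => ⌊p.2 / δ⌋)) * (L ^ e * (#Q : ℝ)) := by
          rw [sum_const, nsmul_eq_mul]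
      _ ≤ _ := by gcongr
  have h3 : lam ^ 2 * (#P3 : ℝ) ≤ #P' * (14 * (L ^ e * #Q)) := by
    rw [h1, mul_sum]
    calc _ ≤ ∑ k ∈ P3.image (fun p : Pt => ⌊p.1 / δ⌋), (14 * (L ^ e * (#Q : ℝ))) :=
          sum_le_sum h2
      _ = #(P3.image (fun p : Pt => ⌊p.1 / δ⌋)) * (14 * (L ^ e * (#Q : ℝ))) := by
          rw [sum_const, nsmul_eq_mul]
      _ = _ := by
          rw [← him, card_image_of_injOn hinj]
  have h4 : 16 * K ^ s ≤ L := by
    have := h.fr.pj.mulK (s := s) (t := 4) (by omega)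
    norm_num at this
    linarith
  have h5 : lam * (#Q * lam) ≤ (L ^ (e + 1) * #P') * (#Q * lam) := by
    calc lam * (#Q * lam) = lam ^ 2 * #Q := by ring
      _ ≤ lam ^ 2 * (K ^ s * lam * #P3) := by
          have := h.cP
          gcongr
      _ = K ^ s * lam * (lam ^ 2 * #P3) := by ring
      _ ≤ K ^ s * lam * (#P' * (14 * (L ^ e * #Q))) := by gcongr
      _ = 14 * K ^ s * (lam * (#P' * (L ^ e * #Q))) := by ring
      _ ≤ L * (lam * (#P' * (L ^ e * #Q))) := by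
          have : 14 * K ^ s ≤ L := by
            have : 0 ≤ K ^ s := by positivity
            linarith
          gcongr
      _ = _ := by rw [pow_succ]; ring
  exact le_of_mul_le_mul_right h5 (by positivity)

open Classical in
/-- few apexes on a transversal window -/
theorem Sl.mult (h : Sl s C0 K L lam δ Q W a b Y J w₀ ε p₁ p₂ P3 G0) {P' : Finset Pt}
    (hP' : P' ⊆ P3) (hinj : Set.InjOn (fun p : Pt => ⌊p.1 / δ⌋) P') {w : ι} (hw : w ∈ W)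
    (ha : 1 / L < |a w - a w₀|) : (#{p ∈ P' | p ∈ Y w} : ℝ) ≤ 36 * L := by
  have hL0 := h.fr.L0
  have hL1 := h.fr.pj.L1
  have hδ := h.fr.pj.dpos
  rcases (({p ∈ P' | p ∈ Y w} : Finset Pt)).eq_empty_or_nonempty with h1 | ⟨p₀, hp₀⟩
  · rw [h1, card_empty]; push_cast; positivity
  have h6 := card_sep_le ({p ∈ P' | p ∈ Y w}) (fun p : Pt => (⌊p.1 / δ⌋ : ℝ) * δ)
    (x := p₀.1) (l := 16 * δ * L + δ) hδ (by positivity)
    (fun p hp p' hp' hne => ?_) (fun p hp => ?_)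
  · refine h6.trans ?_
    have e : 2 * (16 * δ * L + δ) / δ = 32 * L + 2 := by
      rw [div_eq_iff hδ.ne']; ring
    have h40 := h.fr.Lbig
    have : (4 : ℝ) ≤ 2 ^ 40 := by norm_num
    rw [e]; linarith
  · have h2 : ⌊p.1 / δ⌋ ≠ ⌊p'.1 / δ⌋ := fun h3 =>
      hne (hinj (mem_filter.1 hp).1 (mem_filter.1 hp').1 h3)
    rw [← sub_mul, abs_mul, abs_of_pos hδ]
    have : (1 : ℝ) ≤ |(⌊p.1 / δ⌋ : ℝ) - ⌊p'.1 / δ⌋| := by
      have : (1 : ℤ) ≤ |⌊p.1 / δ⌋ - ⌊p'.1 / δ⌋| := Int.one_le_abs (sub_ne_zero.2 h2)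
      exact_mod_cast this
    nlinarith
  · have h2 := h.fr.two hw (mem_filter.1 hp₀).2 (mem_filter.1 hp).2
    have h3 := h.fr.two h.fr.hw₀ (h.subP (hP' (mem_filter.1 hp₀).1))
      (h.subP (hP' (mem_filter.1 hp).1))
    have h4 : |(a w - a w₀) * (p.1 - p₀.1)| ≤ 16 * δ := by
      have e : (a w - a w₀) * (p.1 - p₀.1) = ((p.2 - p₀.2) - a w₀ * (p.1 - p₀.1))
          - ((p.2 - p₀.2) - a w * (p.1 - p₀.1)) := by ring
      rw [e]
      calc _ ≤ |(p.2 - p₀.2) - a w₀ * (p.1 - p₀.1)| + |(p.2 - p₀.2) - a w * (p.1 - p₀.1)| :=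
            abs_sub _ _
        _ ≤ 8 * δ + 8 * δ := add_le_add h3 h2
        _ = _ := by ring
    rw [abs_mul] at h4
    have h5 : 1 / L * |p.1 - p₀.1| ≤ 16 * δ := by
      refine le_trans ?_ h4
      gcongr
    rw [one_div, inv_mul_le_iff₀ hL0] at h5
    have h9 : |p.1 - (⌊p.1 / δ⌋ : ℝ) * δ| ≤ δ := by
      have := rd_near (d := δ) (t := p.1) hδ
      unfold rd at this
      rw [mul_comm] at this
      exact this

    calc _ ≤ |(⌊p.1 / δ⌋ : ℝ) * δ - p.1| + |p.1 - p₀.1| := abs_sub_le _ _ _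
      _ ≤ δ + L * (16 * δ) := by
          rw [abs_sub_comm] at h9
          gcongr
      _ = _ := by ring

end sl

end Vale.Agent.P065.UB.H759
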