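import Vale.Agent.P065.UB.H759.Cls

/-!
# P065, upper bound, line P: [FIB] from [FP] (helper759)
-/

set_option autoImplicit false

namespace Vale.Agent.P065.UB.H759

open Finset Vale.Agent.P065.UB

/-- close numbers have close floors -/
theorem floor_close {δ t t' l : ℝ} (hδ : 0 < δ) (h : |t - t'| ≤ l * δ) (m : ℕ)
    (hm : l + 1 ≤ m) : ⌊t / δ⌋ ∈ Icc (⌊t' / δ⌋ - m) (⌊t' / δ⌋ + m) := by
  have h1 := Int.floor_le (t / δ)
  have h2 := Int.lt_floor_add_one (t / δ)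
  have h3 := Int.floor_le (t' / δ)
  have h4 := Int.lt_floor_add_one (t' / δ)
  have h5 : |t / δ - t' / δ| ≤ l := by
    rw [← sub_div, abs_div, abs_of_pos hδ, div_le_iff₀ hδ]
    exact h
  obtain ⟨h6, h7⟩ := abs_le.1 h5
  rw [mem_Icc]
  constructor
  · have : ((⌊t' / δ⌋ - m : ℤ) : ℝ) ≤ ((⌊t / δ⌋ : ℤ) : ℝ) := by push_cast; linarith
    exact_mod_cast this
  · have : ((⌊t / δ⌋ : ℤ) : ℝ) ≤ ((⌊t' / δ⌋ + m : ℤ) : ℝ) := by push_cast; linarith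
    exact_mod_cast this

theorem stFib_of (hFP : StFP) : StFib := by
  obtain ⟨s', c, hFP⟩ := hFP
  refine ⟨s' + 24, fun s => ⟨c, fun C0 hC K L lam δ Q ι W a b Y J w₀ ε p₁ p₂ P3 G0 h k => ?_⟩⟩
  classical
  have hL0 := h.fr.L0
  have hL1 := h.fr.pj.L1
  have hLb := h.fr.Lbig
  have hδ := h.fr.pj.dpos
  have hd := h.d0
  have hN := h.fr.pj.N0
  set F : Finset Pt := {q ∈ G0 | kap (L ^ 8 * δ) ε p₁ p₂ q = k} with hF
  rcases F.eq_empty_or_nonempty with h0 | ⟨q₀, hq₀⟩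
  · rw [h0, card_empty]
    push_cast
    rw [mul_zero]
    positivity
  -- two points of the cell are close
  have hclose : ∀ q ∈ F, |q.1 - q₀.1| ≤ 220 * L ^ 11 * δ ∧ |q.2 - q₀.2| ≤ 220 * L ^ 11 * δ := by
    intro q hq
    obtain ⟨hqG, hqk⟩ := mem_filter.1 hq
    obtain ⟨hqG₀, hqk₀⟩ := mem_filter.1 hq₀
    have e : kap (L ^ 8 * δ) ε p₁ p₂ q = kap (L ^ 8 * δ) ε p₁ p₂ q₀ := hqk.trans hqk₀.symm
    unfold kap at e
    rw [Prod.mk.injEq] at e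
    obtain ⟨e1, e2⟩ := e
    have d1 : |cc ε p₁ p₂ p₁ q - cc ε p₁ p₂ p₁ q₀| ≤ 2 * (L ^ 8 * δ) := by
      have a1 := rd_near (t := cc ε p₁ p₂ p₁ q) hd
      have a2 := rd_near (t := cc ε p₁ p₂ p₁ q₀) hd
      rw [e1] at a1
      rw [abs_le] at a1 a2 ⊢
      constructor <;> linarith
    have d2 : |cc ε p₁ p₂ p₂ q - cc ε p₁ p₂ p₂ q₀| ≤ 2 * (L ^ 8 * δ) := by
      have a1 := rd_near (t := cc ε p₁ p₂ p₂ q) hd
      have a2 := rd_near (t := cc ε p₁ p₂ p₂ q₀) hd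
      rw [e2] at a1
      rw [abs_le] at a1 a2 ⊢
      constructor <;> linarith
    have j1 := h.jn q hqG
    have j2 := h.jn q₀ hqG₀
    obtain ⟨r1, r2⟩ := h.fr.inv_lip (q := q) (q' := q₀) (θ := 2 * (L ^ 8 * δ)) (by positivity)
      (h.fr.pj.box q (h.subG hqG)) (h.fr.hh_low j1.1 j1.2.2) (h.fr.hh_up j1.1)
      (h.fr.hh_low j2.1 j2.2.2) (h.fr.hh_up j2.1) d1 d2
    constructor
    · refine r1.trans ?_
      calc 76 * L ^ 3 * (2 * (L ^ 8 * δ)) = 152 * (L ^ 11 * δ) := by ring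
        _ ≤ 220 * (L ^ 11 * δ) := by gcongr; norm_num
        _ = _ := by ring
    · refine r2.trans (le_of_eq (by ring))
  set m : ℕ := ⌈220 * L ^ 11 + 1⌉₊ with hm
  have hm1 : 220 * L ^ 11 + 1 ≤ m := Nat.le_ceil _
  have hm2 : (m : ℝ) < 220 * L ^ 11 + 1 + 1 := Nat.ceil_lt_add_one (by positivity)
  have hsub : F.image (sqc δ) ⊆ Icc (⌊q₀.1 / δ⌋ - m) (⌊q₀.1 / δ⌋ + m) ×ˢ
      Icc (⌊q₀.2 / δ⌋ - m) (⌊q₀.2 / δ⌋ + m) := by
    intro z hz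
    obtain ⟨q, hq, rfl⟩ := mem_image.1 hz
    exact mem_product.2 ⟨floor_close hδ (hclose q hq).1 m hm1, floor_close hδ (hclose q hq).2 m hm1⟩
  have hcard : (#(F.image (sqc δ)) : ℝ) ≤ L ^ 24 := by
    have c1 : #(F.image (sqc δ)) ≤ (2 * m + 1) * (2 * m + 1) := by
      refine (card_le_card hsub).trans (le_of_eq ?_)
      rw [card_product, Int.card_Icc, Int.card_Icc]
      congr 1 <;> omega
    have c2 : (#(F.image (sqc δ)) : ℝ) ≤ (2 * m + 1) * (2 * m + 1) := by exact_mod_cast c1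
    have c3 : (2 * (m : ℝ) + 1) ≤ L ^ 12 := by
      have c4 : 1 ≤ L ^ 11 := one_le_pow₀ hL1
      have c5 : (445 : ℝ) ≤ 2 ^ 40 := by norm_num
      calc (2 * (m : ℝ) + 1) ≤ 445 * L ^ 11 := by linarith
        _ ≤ L * L ^ 11 := by
            have : (445 : ℝ) ≤ L := c5.trans hLb
            gcongr
        _ = _ := by ring
    calc (#(F.image (sqc δ)) : ℝ) ≤ (2 * m + 1) * (2 * m + 1) := c2
      _ ≤ L ^ 12 * L ^ 12 := by gcongr
      _ = _ := by ring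
  have hcell : ∀ z ∈ F.image (sqc δ), lam ^ 2 * (#{q ∈ F | sqc δ q = z} : ℝ) ≤ L ^ s' * #Q := by
    intro z hz
    obtain ⟨q, hq, rfl⟩ := mem_image.1 hz
    refine le_trans ?_ (hFP C0 hC K L lam δ Q ι W a b Y J h.fr.pj q
      (h.gdG (mem_filter.1 hq).1))
    have hs : ({q' ∈ F | sqc δ q' = sqc δ q} : Finset Pt) ⊆
        {p ∈ Gd K L lam δ Q W Y | sqc δ p = sqc δ q} := by
      intro x hx
      obtain ⟨hx1, hx2⟩ := mem_filter.1 hx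
      exact mem_filter.2 ⟨h.gdG (mem_filter.1 hx1).1, hx2⟩
    have : (#{q' ∈ F | sqc δ q' = sqc δ q} : ℝ) ≤
        #{p ∈ Gd K L lam δ Q W Y | sqc δ p = sqc δ q} := by exact_mod_cast card_le_card hs
    gcongr
  have hsum : (#F : ℝ) = ∑ z ∈ F.image (sqc δ), (#{q ∈ F | sqc δ q = z} : ℝ) := by
    exact_mod_cast card_eq_sum_card_image (sqc δ) F
  calc lam ^ 2 * (#F : ℝ) = ∑ z ∈ F.image (sqc δ), lam ^ 2 * (#{q ∈ F | sqc δ q = z} : ℝ) := by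
        rw [hsum, mul_sum]
    _ ≤ ∑ z ∈ F.image (sqc δ), L ^ s' * (#Q : ℝ) := sum_le_sum hcell
    _ = #(F.image (sqc δ)) * (L ^ s' * #Q) := by rw [sum_const, nsmul_eq_mul]
    _ ≤ L ^ 24 * (L ^ s' * #Q) := by gcongr
    _ = L ^ (s' + 24) * #Q := by ring

end Vale.Agent.P065.UB.H759
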