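import Vale.Agent.P065.UB.H759.U2
import Vale.Agent.P065.UB.H602.AsmP4

set_option autoImplicit false

namespace Vale.Agent.P065.UB.H759

open Finset

/-- line P, official form -/
theorem poly_final (A : ℕ) : ∃ c C : ℝ, 0 < c ∧
    ∀ P : Finset (ℝ × ℝ), GenPos P →
    (∀ p ∈ P, ∃ x y : ℤ, p = ((x : ℝ), (y : ℝ)) ∧ |x| ≤ (#P : ℤ) ^ A ∧ |y| ≤ (#P : ℤ) ^ A) →
      (halvingNumber P : ℝ) ≤ C * (#P : ℝ) ^ (4 / 3 - c) ∧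
      ∀ k : ℕ, 1 ≤ k → k + 1 ≤ #P → (kSetNumber P k : ℝ) ≤ C * (#P : ℝ) ^ (4 / 3 - c) :=
  H602.poly_final1 stU2 A

end Vale.Agent.P065.UB.H759
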