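import Vale.Agent.P065.H626.Seg
import Vale.Agent.P118.OF.Defs

/-!
# P065, upper bound: the grid data delivered by line P (helper759)

`K` is one loss for everything.  `B`, `H` are the positions of the strips of the classes `o₁`, `o₂`,
`C a s ⊆ B ×ˢ H` the cells on the strip `s` of the class `a`, `P0` the set of all points in the
chart, `m` the mass of a cell.
-/

set_option autoImplicit false

namespace Vale.Agent.P065.UB.H759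

open Finset
open Vale.Agent.P118.OF (Sep)
open Vale.Agent.P065.H626 (Box)

open Classical in
structure GridD (K lam m d : ℝ) (A B H : Finset ℝ) (P0 : Finset (ℝ × ℝ)) (S : ℝ → Finset ℝ)
    (C : ℝ → ℝ → Finset (ℝ × ℝ)) : Prop where
  two : 2 ≤ K
  lam1 : 1 ≤ lam
  m0 : 0 < m
  d0 : 0 < d
  d1 : d ≤ 1
  dim : d * lam ^ 2 ≤ K
  sepB : Sep d B
  sepH : Sep d H
  boxB : ∀ b ∈ B, |b| ≤ K
  boxH : ∀ h ∈ H, |h| ≤ K
  cB : (#B : ℝ) ≤ K * lam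
  cH : (#H : ℝ) ≤ K * lam
  cA : lam ≤ K * #A
  absA : ∀ a ∈ A, 1 ≤ K * |a| ∧ |a| ≤ K
  cS : ∀ a ∈ A, (#(S a) : ℝ) ≤ K * lam
  sub : ∀ a ∈ A, ∀ s ∈ S a, C a s ⊆ B ×ˢ H
  disj : ∀ a ∈ A, ∀ s ∈ S a, ∀ s' ∈ S a, s ≠ s' → Disjoint (C a s) (C a s')
  near : ∀ a ∈ A, ∀ s ∈ S a, ∀ q ∈ C a s, |q.1 + a * q.2 - s| ≤ d
  full : ∀ a ∈ A, lam ^ 2 ≤ K * ∑ s ∈ S a, (#(C a s) : ℝ)
  cP : (#P0 : ℝ) ≤ K * lam ^ 2 * m
  star : ∀ al t r s₀ h₀ : ℝ, |al| ≤ K → d ≤ t → d ≤ r →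
    ∑ a ∈ A, ∑ s ∈ S a, (m * #((C a s).filter (Box al t r s₀ h₀))) ^ 3
      ≤ K * (lam * m) * (#(P0.filter (Box al (K * t) (K * r) s₀ h₀)) : ℝ) ^ 2

/-- **AC2 + ENDX + UK**: the grid data are contradictory (helpers 626, 196) -/
def StGridD : Prop :=
  ∃ c : ℕ, ∀ (K lam m d : ℝ) (A B H : Finset ℝ) (P0 : Finset (ℝ × ℝ)) (S : ℝ → Finset ℝ)
    (C : ℝ → ℝ → Finset (ℝ × ℝ)), GridD K lam m d A B H P0 S C → K ^ c ≤ lam → False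

end Vale.Agent.P065.UB.H759
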