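import Vale.Agent.P065.UB.H759.Chart
import Vale.Agent.P065.H626.AC2Defs

/-!
# P065, upper bound, line P: rounding, transversals, half-planes of a box of the chart (helper759)
-/

set_option autoImplicit false

namespace Vale.Agent.P065.UB.H759

open Finset Vale.Agent.P065.UB
open Vale.Agent.P118.OF (Sep)
open Vale.Agent.P065.H626 (Box)

/-- rounding to multiples of `d` -/
noncomputable def rd (d t : ℝ) : ℝ := d * ⌊t / d⌋

theorem rd_near {d t : ℝ} (hd : 0 < d) : |t - rd d t| ≤ d := by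
  unfold rd
  have h1 := Int.floor_le (t / d)
  have h2 := Int.lt_floor_add_one (t / d)
  have h3 : t = d * (t / d) := by field_simp
  have h4 : d * ⌊t / d⌋ ≤ t := by
    conv_rhs => rw [h3]
    gcongr
  have h5 : t < d * (⌊t / d⌋ + 1) := by
    conv_lhs => rw [h3]
    gcongr
  rw [abs_le]
  constructor <;> linarith

theorem rd_sep {d t t' : ℝ} (hd : 0 < d) (h : rd d t ≠ rd d t') : d ≤ |rd d t - rd d t'| := by
  unfold rd at h ⊢
  have h1 : ⌊t / d⌋ ≠ ⌊t' / d⌋ := fun h2 => h (by rw [h2])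
  rw [← mul_sub, abs_mul, abs_of_pos hd]
  have h2 : (1 : ℝ) ≤ |(⌊t / d⌋ : ℝ) - ⌊t' / d⌋| := by
    have : (1 : ℤ) ≤ |⌊t / d⌋ - ⌊t' / d⌋| := Int.one_le_abs (sub_ne_zero.2 h1)
    exact_mod_cast this
  nlinarith

/-- rounded numbers near `x` -/
theorem card_rd {d x l : ℝ} (hd : 0 < d) (hl : 0 ≤ l) (S : Finset ℝ) (hS : ∀ s ∈ S, ∃ t, s = rd d t)
    (hx : ∀ s ∈ S, |s - x| ≤ l) : (#S : ℝ) ≤ 2 * l / d + 2 := by
  refine card_sep_le S id hd hl (fun s hs s' hs' hne => ?_) hx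
  obtain ⟨t, rfl⟩ := hS s hs
  obtain ⟨t', rfl⟩ := hS s' hs'
  exact rd_sep hd hne

/-- rounded numbers near the positions of the windows through `p` -/
theorem card_rd_windows {ι : Type} {d l : ℝ} (hd : 0 < d) (hl : 0 ≤ l) (S : Finset ℝ)
    (V : Finset ι) (z : ι → ℝ) (hS : ∀ s ∈ S, ∃ t, s = rd d t)
    (hx : ∀ s ∈ S, ∃ w ∈ V, |s - z w| ≤ l) : (#S : ℝ) ≤ #V * (2 * l / d + 2) := by
  classical
  have h1 : S ⊆ V.biUnion (fun w => {s ∈ S | |s - z w| ≤ l}) := by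
    intro s hs
    obtain ⟨w, hw, h2⟩ := hx s hs
    exact mem_biUnion.2 ⟨w, hw, mem_filter.2 ⟨hs, h2⟩⟩
  calc (#S : ℝ) ≤ #(V.biUnion (fun w => {s ∈ S | |s - z w| ≤ l})) := by
        exact_mod_cast card_le_card h1
    _ ≤ ∑ w ∈ V, (#{s ∈ S | |s - z w| ≤ l} : ℝ) := by exact_mod_cast card_biUnion_le
    _ ≤ ∑ w ∈ V, (2 * l / d + 2) := sum_le_sum fun w _ =>
        card_rd hd hl _ (fun s hs => hS s (mem_filter.1 hs).1) (fun s hs => (mem_filter.1 hs).2)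
    _ = _ := by rw [sum_const, nsmul_eq_mul]

/-- a transversal of the fibres of a map -/
theorem exists_transversal {α β : Type*} [DecidableEq β] (S : Finset α) (f : α → β) :
    ∃ S' ⊆ S, Set.InjOn f S' ∧ S'.image f = S.image f := by
  classical
  rcases S.eq_empty_or_nonempty with rfl | ⟨x₀, _⟩
  · exact ⟨∅, Subset.rfl, by simp, rfl⟩
  have h : ∀ y ∈ S.image f, ∃ x ∈ S, f x = y := fun y hy => mem_image.1 hy
  haveI : Nonempty α := ⟨x₀⟩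
  choose! g hg using h
  refine ⟨(S.image f).image g, ?_, ?_, ?_⟩
  · intro x hx
    obtain ⟨y, hy, rfl⟩ := mem_image.1 hx
    exact (hg y hy).1
  · intro x hx x' hx' he
    obtain ⟨y, hy, rfl⟩ := mem_image.1 (mem_coe.1 hx)
    obtain ⟨y', hy', rfl⟩ := mem_image.1 (mem_coe.1 hx')
    rw [(hg y hy).2, (hg y' hy').2] at he
    rw [he]
  · ext y
    rw [mem_image]
    constructor
    · rintro ⟨x, hx, rfl⟩
      obtain ⟨y, hy, rfl⟩ := mem_image.1 hx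
      rw [(hg y hy).2]
      exact hy
    · intro hy
      exact ⟨g y, mem_image_of_mem g hy, (hg y hy).2⟩

/-- the chart is injective -/
theorem chart_inj {ε : ℝ} {p₁ p₂ q q' : Pt} (hε : ε * ε = 1) (h12 : p₂.1 - p₁.1 ≠ 0)
    (hq : 0 < hh ε p₁ p₂ q) (hq' : 0 < hh ε p₁ p₂ q')
    (h1 : cc ε p₁ p₂ p₁ q = cc ε p₁ p₂ p₁ q') (h2 : cc ε p₁ p₂ p₂ q = cc ε p₁ p₂ p₂ q') :
    q = q' := by
  have e1 : cc ε p₁ p₂ p₁ q - cc ε p₁ p₂ p₂ q = (p₂.1 - p₁.1) / hh ε p₁ p₂ q := by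
    unfold cc; field_simp; ring
  have e1' : cc ε p₁ p₂ p₁ q' - cc ε p₁ p₂ p₂ q' = (p₂.1 - p₁.1) / hh ε p₁ p₂ q' := by
    unfold cc; field_simp; ring
  have e2 : (p₂.1 - p₁.1) / hh ε p₁ p₂ q = (p₂.1 - p₁.1) / hh ε p₁ p₂ q' := by
    rw [← e1, ← e1', h1, h2]
  have e3 : hh ε p₁ p₂ q = hh ε p₁ p₂ q' := by
    rw [div_eq_div_iff hq.ne' hq'.ne'] at e2
    have := mul_left_cancel₀ h12 e2
    exact this.symm
  have e4 : q.1 = q'.1 := by
    unfold cc at h1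
    rw [e3, div_left_inj' hq'.ne'] at h1
    linarith
  have e5 : q.2 = q'.2 := by
    have h3 := hh_sub ε p₁ p₂ q' q
    rw [e3, e4, sub_self, sub_self, mul_zero, sub_zero] at h3
    have : ε * (ε * (q.2 - q'.2)) = 0 := by rw [← h3, mul_zero]
    rw [← mul_assoc, hε, one_mul] at this
    linarith
  exact Prod.ext e4 e5

/-- the polygon of a box of the chart: `h₀ ≤ hh`, `|x + al y - s| ≤ t`, `|y - u| ≤ r` -/
theorem exists_pol (ε : ℝ) (p₁ p₂ : Pt) (h₀ al s t u r : ℝ) :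
    ∃ S : Finset (ℝ × ℝ × ℝ), #S ≤ 8 ∧ ∀ q : Pt, Pol S q ↔ h₀ ≤ hh ε p₁ p₂ q ∧
      |(q.1 - p₁.1) + al * (q.1 - p₂.1) - s * hh ε p₁ p₂ q| ≤ t * hh ε p₁ p₂ q ∧
      |(q.1 - p₂.1) - u * hh ε p₁ p₂ q| ≤ r * hh ε p₁ p₂ q := by
  classical
  set A := -ε * s0 p₁ p₂ with hA
  set G := ε * (-p₁.2 + s0 p₁ p₂ * p₁.1) with hG
  have hh' : ∀ q : Pt, hh ε p₁ p₂ q = A * q.1 + ε * q.2 + G := by
    intro q; unfold hh; rw [hA, hG]; ring
  refine ⟨{(-A, -ε, G - h₀), (1 + al - (s + t) * A, -(s + t) * ε, p₁.1 + al * p₂.1 + (s + t) * G),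
    (-(1 + al) + (s - t) * A, (s - t) * ε, -(p₁.1 + al * p₂.1) - (s - t) * G),
    (1 - (u + r) * A, -(u + r) * ε, p₂.1 + (u + r) * G),
    (-1 + (u - r) * A, (u - r) * ε, -p₂.1 - (u - r) * G)}, ?_, ?_⟩
  · exact le_trans Finset.card_le_five (by norm_num)
  · intro q
    unfold Pol
    simp only [mem_insert, mem_singleton, forall_eq_or_imp, forall_eq, hh' q, abs_le]
    constructor
    · rintro ⟨h1, h2, h3, h4, h5⟩
      refine ⟨by linarith, ⟨by nlinarith, by nlinarith⟩, ⟨by nlinarith, by nlinarith⟩⟩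
    · rintro ⟨h1, ⟨h2, h3⟩, ⟨h4, h5⟩⟩
      refine ⟨by linarith, by nlinarith, by nlinarith, by nlinarith, by nlinarith⟩

end Vale.Agent.P065.UB.H759
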