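import Vale.Agent.P065.UB.H759.Rd

/-!
# P065, upper bound, line P: the selected data and literal Props of the pieces of the grid
(helper759)
-/

set_option autoImplicit false

namespace Vale.Agent.P065.UB.H759

open Finset Vale.Agent.P065.UB

/-- the data of `StSel` in the frame of the chart -/
structure Sl (s C0 : ℕ) (K L lam δ : ℝ) (Q : Finset Pt) {ι : Type} (W : Finset ι)
    (a b : ι → ℝ) (Y : ι → Finset Pt) (J : ι → Finset (Pt × Pt)) (w₀ : ι) (ε : ℝ)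
    (p₁ p₂ : Pt) (P3 G0 : Finset Pt) : Prop where
  fr : Fr C0 K L lam δ Q W a b Y J w₀ ε p₁ p₂
  subP : P3 ⊆ Y w₀
  subG : G0 ⊆ Q
  gdP : P3 ⊆ Gd K L lam δ Q W Y
  gdG : G0 ⊆ Gd K L lam δ Q W Y
  farP : ∀ p ∈ P3, 1 / L < |p.1 - p₁.1| ∧ 1 / L < |p.1 - p₂.1|
  jn : ∀ q ∈ G0, Jn L W a J w₀ p₁ q ∧ Jn L W a J w₀ p₂ q ∧ 0 < ε * (q.2 - a w₀ * q.1 - b w₀)
  cP : (#Q : ℝ) ≤ K ^ s * lam * #P3
  cG : ∀ p ∈ P3, open Classical in (#Q : ℝ) ≤ K ^ s * #{q ∈ G0 | Jn L W a J w₀ p q}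

/-- the cell of a point -/
noncomputable def kap (d ε : ℝ) (p₁ p₂ q : Pt) : ℝ × ℝ :=
  (rd d (cc ε p₁ p₂ p₁ q), rd d (cc ε p₁ p₂ p₂ q))

/-- **[FIB]** a cell has few points of `G0`.
Proof: two points of the cell have `|x - x'| ≤ d`, `|y - y'| ≤ d`, `d = L ^ 8 δ`, so by
`Fr.inv_lip` (with `Fr.hh_low`, `Fr.hh_up`) `|q.1 - q'.1| ≤ 76 L ^ 11 δ`,
`|q.2 - q'.2| ≤ 110 L ^ 11 δ`: the cell meets at most `(220 L ^ 11 + 3) ^ 2` squares `sqc δ`, each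
with few good points ([FP]). -/
def StFib : Prop :=
  ∃ e : ℕ, ∀ s : ℕ, ∃ c : ℕ, ∀ C0 : ℕ, c ≤ C0 → ∀ (K L lam δ : ℝ) (Q : Finset Pt) (ι : Type)
    (W : Finset ι) (a b : ι → ℝ) (Y : ι → Finset Pt) (J : ι → Finset (Pt × Pt)) (w₀ : ι) (ε : ℝ)
    (p₁ p₂ : Pt) (P3 G0 : Finset Pt), Sl s C0 K L lam δ Q W a b Y J w₀ ε p₁ p₂ P3 G0 →
    ∀ k : ℝ × ℝ, open Classical in
    lam ^ 2 * (#{q ∈ G0 | kap (L ^ 8 * δ) ε p₁ p₂ q = k} : ℝ) ≤ L ^ e * #Q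

/-- **[DIMP]** the dimension condition of EndData.
Proof: if `r > 1 / 40` it is `δ lam ^ 2 ≤ L`.  Otherwise one `u ∈ P` has `lam / L ^ (2E)` of the
`x ∈ X` within `r`, so at least `#Q / L ^ (2E+3)` points `q ∈ G0` have `|cc p₂ q - u| ≤ 2 r`; by
`Fr.cc_low` `|u| ≥ 8/10`; with `hh p₂ = 0`: `hh q = ε ((q.2 - p₂.2) - s0 (q.1 - p₂.1))` and
`|(q.1 - p₂.1) - u hh q| ≤ 6 r` give `|q.2 - a₀ q.1 - v₀| ≤ 36 r`, `a₀ = s0 + ε / u`: all these points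
are active, [DIM] gives `δ lam ^ 2 ≤ L ^ c₃ 36 r`, and
`(L ^ 8 δ) ^ 2 lam ^ 3 = L ^ 16 (δ lam ^ 2) ^ 2 / lam`. -/
def StDimP : Prop :=
  ∀ s E : ℕ, ∃ c : ℕ, ∀ C0 : ℕ, c ≤ C0 → ∀ (K L lam δ : ℝ) (Q : Finset Pt) (ι : Type)
    (W : Finset ι) (a b : ι → ℝ) (Y : ι → Finset Pt) (J : ι → Finset (Pt × Pt)) (w₀ : ι) (ε : ℝ)
    (p₁ p₂ : Pt) (P3 G0 : Finset Pt), Sl s C0 K L lam δ Q W a b Y J w₀ ε p₁ p₂ P3 G0 →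
    ∀ X : Finset ℝ, (∀ x ∈ X, open Classical in
      (#Q : ℝ) ≤ L * lam * #{q ∈ G0 | rd (L ^ 8 * δ) (cc ε p₁ p₂ p₂ q) = x}) →
    lam ≤ L ^ E * #X → ∀ r : ℝ, L ^ 8 * δ ≤ r → ∀ P : Finset ℝ,
    (∀ x ∈ X, ∃ u ∈ P, |x - u| < r) → (#P : ℝ) ≤ L ^ E →
    (L ^ 8 * δ) ^ 2 * lam ^ 3 ≤ r ^ 2

end Vale.Agent.P065.UB.H759
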