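import Vale.Agent.P065.UB.H759.Cls2

/-!
# P065, upper bound, line P: literal Prop of the field `star` of the grid (helper759)

`P0c` is the set of all points in the chart.  In the assembly: `A := P'.image (al p₁ p₂)`,
`S a := (Ya .. p).image (st L δ p₁ p₂ p)` and `C a x := {k ∈ Ya .. p | st L δ p₁ p₂ p k = x}` for the
apex `p ∈ P'` with `al p₁ p₂ p = a` (`al` is injective on `P'`), `m := #Q / lam ^ 2`, `n := lam`,
resolution `L ^ 8 * δ`, `B`, `H` the images of `Gp .. G0` under the two coordinates of `kap`.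
-/

set_option autoImplicit false

namespace Vale.Agent.P065.UB.H759

open Finset Vale.Agent.P065.UB
open Vale.Agent.P065.H626 (Box)

open Classical in
/-- all points in the chart -/
noncomputable def P0c (L ε : ℝ) (p₁ p₂ : Pt) (Q : Finset Pt) : Finset (ℝ × ℝ) :=
  ({q ∈ Q | 1 / (4 * L ^ 2) ≤ hh ε p₁ p₂ q} : Finset Pt).image
    (fun q => (cc ε p₁ p₂ p₁ q, cc ε p₁ p₂ p₂ q))

/-- **[STARC]** -/
def StStarC : Prop :=
  ∃ e c : ℕ, ∀ s C0 : ℕ, c ≤ C0 → ∀ (K L lam δ : ℝ) (Q : Finset Pt) (ι : Type) (W : Finset ι)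
    (a b : ι → ℝ) (Y : ι → Finset Pt) (J : ι → Finset (Pt × Pt)) (w₀ : ι) (ε : ℝ)
    (p₁ p₂ : Pt) (P3 G0 : Finset Pt), Sl s C0 K L lam δ Q W a b Y J w₀ ε p₁ p₂ P3 G0 →
    ∀ P' ⊆ P3, Set.InjOn (fun p : Pt => ⌊p.1 / δ⌋) P' → ∀ G ⊆ G0,
    ∀ al' : ℝ, |al'| ≤ L → ∀ t r s₀ h₀ : ℝ, L ^ 8 * δ ≤ t → L ^ 8 * δ ≤ r →
    open Classical in
    ∑ p ∈ P', ∑ x ∈ (Ya L lam δ ε p₁ p₂ #Q W a J w₀ G p).image (st L δ p₁ p₂ p),
      (#Q / lam ^ 2 * #{k ∈ Ya L lam δ ε p₁ p₂ #Q W a J w₀ G p |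
        st L δ p₁ p₂ p k = x ∧ Box al' t r s₀ h₀ k} : ℝ) ^ 3 ≤
      L ^ e * (#Q / lam) *
        (#{k ∈ P0c L ε p₁ p₂ Q | Box al' (L ^ 2 * t) (L ^ 2 * r) s₀ h₀ k} : ℝ) ^ 2

end Vale.Agent.P065.UB.H759
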