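import Vale.Agent.P065.UB.H759.Starc
import Vale.Agent.P065.UB.H759.Fib
import Vale.Agent.P065.H882.Sel
import Vale.Agent.P065.UB.H936.Gd
import Vale.Agent.P065.UB.H151.DimP
import Vale.Agent.P065.UB.H151.FP
import Vale.Agent.P065.H626.U2Asm

/-!
# P065, upper bound, line P: `StU2` is a theorem (helper759, with helpers 151, 295, 626, 651, 882,
936)
-/

set_option autoImplicit false

namespace Vale.Agent.P065.UB.H759

theorem stU2 : StU2 :=
  Vale.Agent.P065.H626.U2.stU2_of (Vale.Agent.P065.H882.stSel_of H936.stGd) H151.stFP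
    (stFib_of H151.stFP) H151.stDimP stStarC

end Vale.Agent.P065.UB.H759
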