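import Vale.Agent.P065.UB.H759.PJ

/-!
# P065, upper bound, line P: literal Props of the pieces of [U2'] (helper759)

`PJ` (file `PJ.lean`) is the only hypothesis.  Write `N = #Q`.  In every Prop `C0` is large.
-/

set_option autoImplicit false

namespace Vale.Agent.P065.UB.H759

open Finset Vale.Agent.P065.UB

/-- **[THIRD]** a point lies in few (dilated) tubes.
Proof: such a tube `w` has `#(Y w) ≥ N / (K lam)` (from `cJ`: `#(J w) ≤ #(Y w)^2`), at least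
`N / (2 K lam)` of them at distance `> 1 / L` of `x` (`ncu`); a point `p` far from `x` lies in at most
`2 (ρ + 4) L + 1` of these tubes, as then `a w` is within `(ρ + 4) δ L` of the slope of `x p` and the
`a w` are `δ`-separated. -/
def StThird : Prop :=
  ∃ c : ℕ, ∀ C0 : ℕ, c ≤ C0 → ∀ (K L lam δ : ℝ) (Q : Finset Pt) (ι : Type) (W : Finset ι)
    (a b : ι → ℝ) (Y : ι → Finset Pt) (J : ι → Finset (Pt × Pt)),
    PJ C0 K L lam δ Q W a b Y J → ∀ x : Pt, 0 ≤ x.1 → x.1 ≤ 1 → ∀ ρ : ℝ, 1 ≤ ρ →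
    open Classical in
    (#{w ∈ W | |x.2 - a w * x.1 - b w| ≤ ρ * δ} : ℝ) ≤ ρ * L ^ 2 * lam

open Classical in
/-- active points: in at least `lam / K ^ 6` windows -/
noncomputable def Act {ι : Type} (K lam : ℝ) (Q : Finset Pt) (W : Finset ι)
    (Y : ι → Finset Pt) : Finset Pt :=
  {q ∈ Q | lam ≤ K ^ 6 * #{w ∈ W | q ∈ Y w}}

/-- the square of side `δ` of a point -/
noncomputable def sqc (δ : ℝ) (p : Pt) : ℤ × ℤ := (⌊p.1 / δ⌋, ⌊p.2 / δ⌋)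

open Classical in
/-- good points: active, and at least `1 / L` of the points of the square are active -/
noncomputable def Gd {ι : Type} (K L lam δ : ℝ) (Q : Finset Pt) (W : Finset ι)
    (Y : ι → Finset Pt) : Finset Pt :=
  {q ∈ Act K lam Q W Y | (#{p ∈ Q | sqc δ p = sqc δ q} : ℝ) ≤
    L * #{p ∈ Act K lam Q W Y | sqc δ p = sqc δ q}}

/-- **[GD]** few incidences are not good.
Proof: inactive points have at most `lam / K ^ 6` windows each; the active points of the poor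
squares are at most `N / L` and have at most `K lam` windows each (`touch`). -/
def StGd : Prop :=
  ∃ c : ℕ, ∀ C0 : ℕ, c ≤ C0 → ∀ (K L lam δ : ℝ) (Q : Finset Pt) (ι : Type) (W : Finset ι)
    (a b : ι → ℝ) (Y : ι → Finset Pt) (J : ι → Finset (Pt × Pt)),
    PJ C0 K L lam δ Q W a b Y J →
    open Classical in
    K ^ 5 * ∑ w ∈ W, (#{p ∈ Y w | p ∉ Gd K L lam δ Q W Y} : ℝ) ≤ lam * #Q

/-- **[FP]** a square contains at most `L ^ c N / lam ^ 2` good points.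
Proof: let `n`, `M` be the numbers of active points and of points of `Q` in the square
(`M ≤ L n`).  `∑_w #(Y w ∩ sq) ≥ n lam / K ^ 6`; at most `6 L ^ 2 lam` windows meet the square
([THIRD]); those with few points are negligible, otherwise Hoelder and `star` for the closed square
`iδ ≤ x ≤ (i+1)δ - e`, `jδ ≤ y ≤ (j+1)δ - e` (`e > 0` small, `Q` is finite, so this closed polygon
has exactly the same points of `Q`): `(n lam / (2 K ^ 6)) ^ 3 ≤ (6 L ^ 2 lam) ^ 2 L (N / lam) M ^ 2`. -/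
def StFP : Prop :=
  ∃ s c : ℕ, ∀ C0 : ℕ, c ≤ C0 → ∀ (K L lam δ : ℝ) (Q : Finset Pt) (ι : Type) (W : Finset ι)
    (a b : ι → ℝ) (Y : ι → Finset Pt) (J : ι → Finset (Pt × Pt)),
    PJ C0 K L lam δ Q W a b Y J → ∀ q ∈ Gd K L lam δ Q W Y,
    open Classical in
    lam ^ 2 * (#{p ∈ Gd K L lam δ Q W Y | sqc δ p = sqc δ q} : ℝ) ≤ L ^ s * #Q

/-- `p` and `q` are joined, transversally to `w₀` -/
def Jn {ι : Type} (L : ℝ) (W : Finset ι) (a : ι → ℝ) (J : ι → Finset (Pt × Pt)) (w₀ : ι)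
    (p q : Pt) : Prop :=
  ∃ w ∈ W, (p, q) ∈ J w ∧ 1 / L < |a w - a w₀| ∧ 1 / L < |p.1 - q.1|

/-- **[SEL]** the selection of `w₀`, `p₁`, `p₂`, of the apexes `P3` and of the points `G0`.
Proof: `G w = {e ∈ J w : both ends good, |x - x'| > 1 / L}` has
`∑_w #(G w) ≥ N ^ 2 / (2 K ^ 2)` ([GD], `ncu`), disjoint.  With `jd p = ∑_w #{q : (p, q) ∈ G w}
≤ deg p * K N / lam`: `∑_(w₀) #{(p, q) : p ∈ Y w₀, (p, q) ∈ G w, |a w - a w₀| > 1 / L} ≥
∑_p jd p (deg p) - ... ≥ lam N ^ 2 / (8 K ^ 5)` (`ncx`), so some `w₀` has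
`≥ N ^ 2 / (8 K ^ 6 lam)` pairs; choose the better side `ε`; cubes: quadruples `(p₁, p₂, p₃, q)` with
`q` joined to all three are `≥ (N ^ 2 / (16 K ^ 6 lam)) ^ 3 / N ^ 2`, the quadruples with two of the
`p_i` at distance `≤ 1 / L` are `≤ 3 K ^ 2 (N / lam) ^ 3 N / K ^ C0`. -/
def StSel : Prop :=
  ∃ s c : ℕ, ∀ C0 : ℕ, c ≤ C0 → ∀ (K L lam δ : ℝ) (Q : Finset Pt) (ι : Type) (W : Finset ι)
    (a b : ι → ℝ) (Y : ι → Finset Pt) (J : ι → Finset (Pt × Pt)),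
    PJ C0 K L lam δ Q W a b Y J →
    ∃ w₀ ∈ W, ∃ ε : ℝ, (ε = 1 ∨ ε = -1) ∧ ∃ p₁ ∈ Y w₀, ∃ p₂ ∈ Y w₀, ∃ P3 ⊆ Y w₀, ∃ G0 ⊆ Q,
      P3 ⊆ Gd K L lam δ Q W Y ∧ G0 ⊆ Gd K L lam δ Q W Y ∧
      1 / L < |p₁.1 - p₂.1| ∧
      (∀ p ∈ P3, 1 / L < |p.1 - p₁.1| ∧ 1 / L < |p.1 - p₂.1|) ∧
      (∀ q ∈ G0, Jn L W a J w₀ p₁ q ∧ Jn L W a J w₀ p₂ q ∧
        0 < ε * (q.2 - a w₀ * q.1 - b w₀)) ∧
      (#Q : ℝ) ≤ K ^ s * lam * #P3 ∧
      (∀ p ∈ P3, open Classical in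
        (#Q : ℝ) ≤ K ^ s * #{q ∈ G0 | Jn L W a J w₀ p q})

/-- **[DIM]** a strip of width `θ` with many active points forces `δ lam ^ 2 ≤ L ^ c₃ θ`.
Proof: (1) by `ncx` the points of the strip `T` have at least `lam / (2 K ^ 6)` windows with
`|a w - a₀| > 1 / L`; such a window meets `T` in an `x`-interval of length `≤ 10 L θ = ℓ`.
(2) the windows with `#(Y w ∩ T) ≥ N / (4 K ^ 7 L ^ c₂ lam)` are at least
`lam ^ 2 / (4 K ^ 7 L ^ c₂)`; `star` for the boxes `iℓ ≤ x ≤ (i+1)ℓ`, `|y - a₀ x - v₀| ≤ θ`: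
number of such windows with half of `Y w ∩ T` in the box `i` is `≤ L ^ c lam ^ 2 (N_i / N) ^ 2`,
`∑ N_i ≤ 2 N`: so one box has at least `lam ^ 2 / L ^ c₆` of them.
(3) let `x₀` be a corner of the box, `θ' = L ^ 4 θ`; the far pairs of `Y w` (both far from `x₀` and
from each other) lie in at most `17 L` windows; the point `x` far from `x₀` lies in windows of at
most `12 L` classes `⌊a w / θ'⌋`; Cauchy-Schwarz as in (2): one class has at least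
`lam ^ 2 / L ^ c₇` windows.  (4) the `a w` are `δ`-separated: `lam ^ 2 / L ^ c₇ ≤ 2 θ' / δ`. -/
def StDim : Prop :=
  ∀ c₂ : ℕ, ∃ c₃ c : ℕ, ∀ C0 : ℕ, c ≤ C0 → ∀ (K L lam δ : ℝ) (Q : Finset Pt) (ι : Type)
    (W : Finset ι) (a b : ι → ℝ) (Y : ι → Finset Pt) (J : ι → Finset (Pt × Pt)),
    PJ C0 K L lam δ Q W a b Y J → ∀ a₀ v₀ θ : ℝ, |a₀| ≤ 3 * L → δ ≤ θ →
    open Classical in
    (#Q : ℝ) ≤ L ^ c₂ * #{q ∈ Act K lam Q W Y | |q.2 - a₀ * q.1 - v₀| ≤ θ} →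
    δ * lam ^ 2 ≤ L ^ c₃ * θ

end Vale.Agent.P065.UB.H759
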